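import Vale.Agent.P088.R2.H932.EP.Pk1

/-!
# P088: the derivatives of the literal cut variables and cut-offs near the diagonal

On the supports of the zones near the diagonal `u ≤ uta`; there the variables of all cuts are
bounded by a constant which depends only on the constants before `ηc`; the variable of `co` by
`C ηc`, the variable of `inf` by `C / R` and `C / R²`.
-/

open Set Filter
open scoped Topology ContDiff Matrix

noncomputable section

namespace Vale.Agent.P088.R2.H932.EP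

open Vale.Agent.P088.LR Vale.Agent.P088.HY Vale.Agent.P088.R2.H961.GW Vale.Agent.P088.R2.H464.Cu
open Vale.Agent.P088.R2.H31.EP
open Vale.Agent.P088.R2.H475 (wR levG lam0 en_eq en_add en_smul sq0 th1)
open Vale.Agent.P088.R2.H867.EP (Cut Zo path sd Near CP Pair PB on on_nn on_le pr_JB near_path)

variable {n : ℕ} {q : Cst} {d : Pk n} {z : VV n} {u : ℝ}

/-! ## The constants -/

/-- The constant of the functions of `u`. -/
def dN (q : Cst) : ℝ := cD + (9 + 13 + 8 * q.ph.Ct 1 + q.ph.Ct 2 + 22 * cSt + 3 * cSt * q.ph.Ct 1 +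
  8 * cSt ^ 2 + (2 * (1 + cXi) ^ 2 + (1 + cXi)))

/-- **The constant** of all the cuts (it depends only on the constants before `rT`). -/
def cN (n : ℕ) (q : Cst) : ℝ := cC n (dN q) + cV n (dN q) + 7000 * cSt

theorem cN_nb (n : ℕ) : NB_rT (cN n) := fun _ => rfl

theorem cN_nb' (n : ℕ) : NB_ηc (cN n) := fun _ => rfl

/-- The first and second order bounds of the cuts. -/
def αc (C : ℝ) (q : Cst) : Cut → ℝ
  | .inf => C / q.R
  | .co => C * q.ηc
  | _ => C

def βc (C : ℝ) (q : Cst) : Cut → ℝ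
  | .inf => C / q.R ^ 2
  | .co => C * q.ηc
  | _ => C

/-- The conditions on the constants. -/
structure NrC (n : ℕ) (q : Cst) : Prop where
  cd : CdC n q
  c1 : q.c₀ ≤ 1 / 4
  η0 : 0 < q.ηc
  CB1 : 1 ≤ q.CB
  M1 : 1 ≤ q.M₀
  nm1 : 1 ≤ q.nm
  Rn : 100 * (Real.log q.nm + 3) ≤ q.R
  Rk : 5 ≤ q.κ₁ * q.R
  L2 : 2 ≤ q.L
  Ct0 : ∀ j, 0 ≤ q.ph.Ct j
  rad : H509.Rad.Ok q.e₁ rp
  sm : ∀ d : Pk n, PkOk q d → LitSm q d
  rb : ∀ d : Pk n, PkOk q d → ∀ z, 0 ≤ rq (gi d.s₁) z ∧ 1 / 2 * qq z ≤ 2 * rq (gi d.s₁) z ∧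
      2 * rq (gi d.s₁) z ≤ 2 * qq z

theorem evNr (n : ℕ) : EvC (NrC n) := by
  have h1 : EvC fun q => q.c₀ ≤ 1 / 4 :=
    EvC.at_c₀ (fun _ t => t ≤ 1 / 4) fun _ => sml_le (by norm_num)
  have h2 : EvC fun q => 100 * (Real.log q.nm + 3) ≤ q.R :=
    EvC.at_R (fun q t => 100 * (Real.log q.nm + 3) ≤ t) fun _ => eventually_ge_atTop _
  have h3 : EvC fun q => 0 < q.κ₁ → 5 ≤ q.κ₁ * q.R :=
    EvC.at_R (fun q t => 0 < q.κ₁ → 5 ≤ q.κ₁ * t) fun q => by
      by_cases h : 0 < q.κ₁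
      · filter_upwards [eventually_ge_atTop (5 / q.κ₁)] with t ht _
        rw [div_le_iff₀ h] at ht
        linarith
      · exact Eventually.of_forall fun _ h' => absurd h' h
  refine ((((evCd n).and h1).and (h2.and h3)).and
    (((EvC.litSm n).and (EvC.rq n)).and ((EvC.good.and EvC.rad).and EvC.pos))).mono ?_
  rintro q ⟨⟨⟨a1, a2⟩, a3, a4⟩, ⟨b1, b2⟩, ⟨b3, b4⟩, b5⟩
  obtain ⟨⟨c1, c2, c3, c4, c5, c6, c7, c8, c9, c10⟩, ⟨e1, e2, e3, e4, e5, e6, e7⟩, e8, e9, f1, f2,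
    f3, f4⟩ := b5
  exact ⟨a1, a2, c9, c10, e8, c3, a3, a4 e1, b3.1.2.1, b3.1.1.Ct0, b4, b1, fun d h => (b2 d h).2⟩

namespace NrC

theorem R0 (hq : NrC n q) : 300 ≤ q.R := by
  have h1 := Real.log_nonneg hq.nm1
  have h2 := hq.Rn
  linarith

theorem dN_ge (hq : NrC n q) : 24 ≤ dN q := by
  have h1 := cD_two
  have h2 := cSt_one
  have h3 := hq.Ct0 1
  have h4 := hq.Ct0 2
  have h5 := cXi_nonneg
  have : 0 ≤ 8 * q.ph.Ct 1 + q.ph.Ct 2 + 22 * cSt + 3 * cSt * q.ph.Ct 1 +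
    8 * cSt ^ 2 + (2 * (1 + cXi) ^ 2 + (1 + cXi)) := by positivity
  unfold dN
  linarith

theorem dN_D (hq : NrC n q) : cD ≤ dN q := by
  have h2 := cSt_one
  have h3 := hq.Ct0 1
  have h4 := hq.Ct0 2
  have h5 := cXi_nonneg
  have : 0 ≤ 8 * q.ph.Ct 1 + q.ph.Ct 2 + 22 * cSt + 3 * cSt * q.ph.Ct 1 +
    8 * cSt ^ 2 + (2 * (1 + cXi) ^ 2 + (1 + cXi)) := by positivity
  unfold dN
  linarith

theorem cN_nn (hq : NrC n q) : 0 ≤ cN n q := by
  have h := hq.dN_ge
  have h1 := cC_nn (n := n) (D := dN q) (by linarith)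
  have h2 := cV_nn (n := n) (D := dN q) (by linarith)
  have h3 := cSt_one
  unfold cN; positivity

theorem cC_le (hq : NrC n q) : cC n (dN q) ≤ cN n q := by
  have h := hq.dN_ge
  have h2 := cV_nn (n := n) (D := dN q) (by linarith)
  have h3 := cSt_one
  unfold cN; linarith

theorem cV_le (hq : NrC n q) : cV n (dN q) ≤ cN n q := by
  have h := hq.dN_ge
  have h2 := cC_nn (n := n) (D := dN q) (by linarith)
  have h3 := cSt_one
  unfold cN; linarith

/-! ## The level on the supports -/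

/-- Beyond `uta` the slope is much larger than `e^u`. -/
theorem slope (hq : NrC n q) (h : PkOk q d) (h1 : d.uta q ≤ u) (h2 : u ≤ d.utb q) :
    8 / 100 * q.R - 1 ≤ Real.log (deriv d.Φ u) - u := by
  have hR := hq.R0
  have i := hq.cd.inf
  have hM := hq.M1
  have tp := h.top
  have l1 := H404.INF.l₀_le i h
  have l2 : 4 * q.η * q.R ≤ 4 / 200 * q.R := by
    have := i.η1
    nlinarith
  have e1 : d.uth q = 2 * d.l₀ q + 22 / 10 * q.R := rfl
  have e2 : d.uta q = 2 * d.l₀ q + 45 / 10 * q.R := rfl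
  have e3 : d.utb q = 2 * d.l₀ q + 47 / 10 * q.R := rfl
  have Np := fun u => h.N_pos hM u
  have y1 := tp.y1 (d.uta q) (by rw [e1, e2]; linarith) le_rfl
  have k1 : Real.log (deriv d.Φ (d.uta q)) = Real.log (deriv d.Φ (d.uth q)) +
      2 * (d.uta q - d.uth q) := by
    rw [y1, Real.log_mul (Np _).ne' (Real.exp_pos _).ne', Real.log_exp]
  have k2 : 0 ≤ Real.log (deriv d.Φ (d.uth q)) := Real.log_nonneg (hM.trans (h.N_ge _))
  have k3 : 8 / 100 * q.R ≤ Real.log (deriv d.Φ (d.uta q)) - d.uta q := by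
    rw [k1]
    linarith
  have mono : StrictMono (deriv d.Φ) := strictMono_of_deriv_pos tp.k0
  have k4 : ∀ v, d.uta q ≤ v → v ≤ d.uta q + 1 →
      8 / 100 * q.R - 1 ≤ Real.log (deriv d.Φ v) - v := fun v hv hv1 => by
    have := Real.log_le_log (Np _) (mono.monotone hv)
    linarith
  rcases le_total u (d.uta q + 1) with hu | hu
  · exact k4 u h1 hu
  · have y3 := tp.y3 u hu h2
    have k5 := k4 (d.uta q + 1) (by linarith) le_rfl
    rw [y3, Real.log_mul (Np _).ne' (Real.exp_pos _).ne', Real.log_exp]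
    have k6 := mul_le_mul_of_nonneg_right hq.L2 (by linarith : 0 ≤ u - (d.uta q + 1))
    linarith

theorem u_le0 (h : PkOk q d) (z : VV n) : d.u q z ≤ d.u0 z + 1 / 4 := by
  have e : d.u q z = d.u0 z + 2 * (d.χ (H31.EP.r2 (gi d.s₁) z) * d.μc q (d.l (mid z))) := rfl
  have h1 := (d.μc_abs q (d.l (mid z))).trans (h.ph.μb _)
  have h2 := h.χb (H31.EP.r2 (gi d.s₁) z)
  have h3 : |d.χ (H31.EP.r2 (gi d.s₁) z) * d.μc q (d.l (mid z))| ≤ 1 * (1 / 8) := by
    rw [abs_mul]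
    refine mul_le_mul ?_ h1 (abs_nonneg _) zero_le_one
    rw [abs_of_nonneg h2.1]; exact h2.2
  rw [e]
  linarith [(abs_le.1 h3).2]

theorem fin {k : Zo} (hk : Near k) : sd k .inf = false := by
  rcases hk with rfl | rfl | rfl | rfl | rfl <;> decide

theorem u0_le (hq : NrC n q) (h : PkOk q d) {k : Zo} (hk : Near k)
    (hz : z ∈ tsupport (d.ch q k)) : d.u0 z ≤ 2 * d.l₀ q + 93 / 20 * q.R :=
  (H404.INF.near_supp hq.cd.inf h (fin hk) hz).up

/-- **On the supports of the zones near the diagonal `u ≤ uta`.** -/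
theorem u_le (hq : NrC n q) (h : PkOk q d) {k : Zo} (hk : Near k)
    (hz : z ∈ tsupport (d.ch q k)) : d.u q z ≤ d.uta q := by
  have hR := hq.R0
  have hs := hq.sm d h
  have hM := hq.M1
  have h0 := hq.u0_le h hk hz
  have h1 := u_le0 h z
  have e1 : d.uth q = 2 * d.l₀ q + 22 / 10 * q.R := rfl
  have e2 : d.uta q = 2 * d.l₀ q + 45 / 10 * q.R := rfl
  have e3 : d.utb q = 2 * d.l₀ q + 47 / 10 * q.R := rfl
  set f : VV n → ℝ := fun z => Real.log (deriv d.Φ (d.u q z)) - d.u q z - Real.log q.nm with hf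
  have hfc : Continuous f := ((h.logN_sm hM).continuous.comp hs.u.continuous |>.sub
    hs.u.continuous).sub continuous_const
  have hcl : IsClosed ({z | f z ≤ 1} ∪ {z | d.u q z ≤ d.uth q + 1}) :=
    (isClosed_le hfc continuous_const).union (isClosed_le hs.u.continuous continuous_const)
  have hsub : Function.support (d.ch q k) ⊆ {z | f z ≤ 1} ∪ {z | d.u q z ≤ d.uth q + 1} := by
    intro w hw
    have ha : H867.EP.Alive Fl (H867.EP.cv (d.cp q) (d.u q) (H464.Cu.rq (gi d.s₁)) (d.X q)) k w := hw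
    have h2 : d.VS q (d.u q w) < 1 := H867.EP.alive_nRS (P := d.cp q) Fl_pair ha (Or.inl hk)
    by_contra hc
    rw [mem_union, not_or] at hc
    have c1 : 1 < f w := not_le.1 hc.1
    have c2 : d.uth q + 1 < d.u q w := not_le.1 hc.2
    have : d.VS q (d.u q w) = 1 := by
      unfold Pk.VS
      rw [Real.smoothTransition.one_of_one_le c1.le,
        Real.smoothTransition.one_of_one_le (by linarith)]
      norm_num
    linarith
  have h3 := closure_minimal hsub hcl hz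
  by_contra hc
  have hc' : d.uta q < d.u q z := not_le.1 hc
  have h4 := hq.slope h hc'.le (by rw [e3]; linarith)
  rcases h3 with h3 | h3
  · have h5 : f z ≤ 1 := h3
    simp only [hf] at h5
    have := hq.Rn
    have := Real.log_nonneg hq.nm1
    linarith
  · have h5 : d.u q z ≤ d.uth q + 1 := h3
    linarith

/-- The distance on the supports. -/
theorem ρ_le (hq : NrC n q) (h : PkOk q d) {k : Zo} (hk : Near k)
    (hz : z ∈ tsupport (d.ch q k)) : 2 * rq (gi d.s₁) z ≤ 4 * q.c₀ ^ 2 := by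
  have hs := hq.sm d h
  have hp : Cut.r ∈ path k ∧ sd k .r = false := by
    rcases hk with rfl | rfl | rfl | rfl | rfl <;> decide
  have h1 := (H867.EP.ch_tside Fl_pair isOpen_univ hp.1 (hs.cv .r).continuous.continuousOn
    (mem_univ z) hz).2 hp.2
  exact H867.EP.tauR_le hs.cp.c₀ h1

/-- **`Cd` on the supports.** -/
theorem Cds (hq : NrC n q) (h : PkOk q d) {k : Zo} (hk : Near k)
    (hz : z ∈ tsupport (d.ch q k)) :
    Cd (dN q) (Ow n q.σ q.R) (gi d.s₁) d.l (d.μc q) (d.u q) z := by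
  have hR := hq.R0
  have h0 := hq.u0_le h hk hz
  have h1 := hq.ρ_le h hk hz
  have h2 : 0 < q.c₀ := (hq.sm d h).cp.c₀
  have h3 := hq.c1
  refine (hq.cd.cd h ?_ (by linarith)).monoD hq.dN_D
  have h4 : d.r2 z = 2 * H464.Cu.rq (gi d.s₁) z := rfl
  rw [h4]
  nlinarith

/-! ## The functions of `u` -/

section fu

theorem j1_N (h : PkOk q d) (hC : 0 ≤ q.ph.Ct 1) (hu : u ≤ d.uta q) :
    J1 (deriv d.Φ) (41 / 20 * deriv d.Φ u) (41 / 20 * q.ph.Ct 1 * deriv d.Φ u) u := by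
  have k1 := h.top.k1 u hu
  have k0 := h.top.k0 u
  refine J1.of (h.Φ's.contDiffAt.of_le (WithTop.coe_le_coe.2 le_top)) ?_ ?_
  · rw [abs_of_pos k0]; linarith
  · have := h.top.kd 1 u hu
    rw [show (1 + 2 : ℕ) = 3 from rfl, iteratedDeriv_succ, iteratedDeriv_succ, iteratedDeriv_one]
      at this
    refine this.trans ?_
    have := mul_le_mul_of_nonneg_left k1 hC
    linarith

theorem j1_logN (hq : NrC n q) (h : PkOk q d) (hu : u ≤ d.uta q) :
    J1 (fun u => Real.log (deriv d.Φ u)) 3 (5 + 3 * q.ph.Ct 1) u := by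
  have c := hq.Ct0 1
  have h1 := JB.log (h.N_pos hq.M1 u) (j1_N h c hu)
  refine h1.mono (fun _ => zero_le_one) (by norm_num) ?_
  nlinarith

theorem j1_id : J1 (fun u => u) 1 0 u := by
  have h := J1.lin 1 0 (t := u)
  simpa using h

theorem j1_V0 (hq : NrC n q) (h : PkOk q d) (hu : u ≤ d.uta q) :
    J1 (fun u => u - Real.log (deriv d.Φ u)) 4 (5 + 3 * q.ph.Ct 1) u := by
  refine (j1_id.sub (hq.j1_logN h hu)).mono (fun _ => zero_le_one) (by norm_num) ?_
  linarith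

theorem j1_VB (hq : NrC n q) (h : PkOk q d) (hu : u ≤ d.uta q) :
    J1 (fun u => u - 13 / 5 * Real.log (deriv d.Φ u)) 9 (13 + 8 * q.ph.Ct 1) u := by
  have c := hq.Ct0 1
  have h1 := j1_id.sub ((hq.j1_logN h hu).cmul (13 / 5))
  rw [abs_of_pos (by norm_num : (0 : ℝ) < 13 / 5)] at h1
  refine h1.mono (fun _ => zero_le_one) (by norm_num) ?_
  linarith

theorem j1_VS (hq : NrC n q) (h : PkOk q d) (hu : u ≤ d.uta q) :
    J1 (d.VS q) (5 * cSt) (22 * cSt + 3 * cSt * q.ph.Ct 1 + 8 * cSt ^ 2) u := by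
  have c := hq.Ct0 1
  have cs := cSt_one
  have h1 : J1 (fun u => Real.log (deriv d.Φ u) - u + -Real.log q.nm) (3 + 1)
      (5 + 3 * q.ph.Ct 1 + 0) u := ((hq.j1_logN h hu).sub j1_id).addc _
  have h2 := jb_cmp h1 (j1_st _)
  have h3 : J1 (fun u => u + -d.uth q) 1 0 u := j1_id.addc _
  have h4 := jb_cmp h3 (j1_st _)
  have hb : ∀ t, |Real.smoothTransition t| ≤ 1 := fun t => by
    rw [abs_of_nonneg (Real.smoothTransition.nonneg t)]
    exact Real.smoothTransition.le_one t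
  have h5 := h2.mul h4 (hb _) (hb _)
  have h6 : J1 (d.VS q) _ _ u := h5.congr (Eventually.of_forall fun y => by
    unfold Pk.VS
    simp only [sub_eq_add_neg])
  refine h6.mono (fun _ => zero_le_one) (by linarith) ?_
  nlinarith

end fu

end NrC

end Vale.Agent.P088.R2.H932.EP
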