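import Vale.Agent.P088.R2.H932.EP.Pk3
import Vale.Agent.P088.R2.H932.EP.Sh

/-!
# P088: the slots of the package applied to functions in the natural scale, the cut-offs
-/

open Set Filter
open scoped Topology ContDiff Matrix

noncomputable section

namespace Vale.Agent.P088.R2.H932.EP

open Vale.Agent.P088.LR Vale.Agent.P088.HY Vale.Agent.P088.R2.H961.GW Vale.Agent.P088.R2.H464.Cu
open Vale.Agent.P088.R2.H31.EP
open Vale.Agent.P088.R2.H222 (Bk Ck dl abs_dl)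
open Vale.Agent.P088.R2.H644 (Ch.Gr)
open Vale.Agent.P088.R2.H867.EP (Cut Zo path sd Near on)

variable {n : ℕ} {q : Cst} {d : Pk n} {z : VV n} {f : VV n → ℝ} {a b ρ₀ : ℝ}

namespace CdC

theorem ε2 (hq : CdC n q) : q.ε ≤ 1 / 2 := by
  have h := hq.ε1
  have h0 := hq.ε0
  have hc : 2 ≤ H222.cI n 2 := H222.two_le_cI n 2
  have h1 : 1 ≤ cE n := by
    have : 0 ≤ (n : ℝ) + n * (2 ^ 2 * H222.cI n 2) * (2 * (n + 1)) * 2 := by positivity
    unfold cE; linarith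
  nlinarith

/-- The entries of the tensors. -/
theorem tens (hq : CdC n q) (h : PkOk q d) (x : V n) (i j : Fin n) :
    |d.s₁ x i j| ≤ 2 ∧ |d.s₂ x i j| ≤ 2 := by
  have he := hq.ε2
  have h1 := h.rg.cl₁ i j 0 (by norm_num) x
  have h2 := h.rg.cl₂ i j 0 (by norm_num) x
  rw [norm_iteratedFDeriv_zero, pow_zero, mul_one, Real.norm_eq_abs] at h1 h2
  have h3 : |(1 : Matrix (Fin n) (Fin n) ℝ) i j| ≤ 1 := abs_dl i j
  constructor
  · have := abs_add_le (d.s₁ x i j - (1 : Matrix (Fin n) (Fin n) ℝ) i j)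
      ((1 : Matrix (Fin n) (Fin n) ℝ) i j)
    rw [sub_add_cancel] at this
    linarith
  · have := abs_add_le (d.s₂ x i j - (1 : Matrix (Fin n) (Fin n) ℝ) i j)
      ((1 : Matrix (Fin n) (Fin n) ℝ) i j)
    rw [sub_add_cancel] at this
    linarith

theorem pd_it {f : V n → ℝ} {c B : ℝ} {x : V n} (hB : ‖iteratedFDeriv ℝ 1 (fun x => f x - c) x‖ ≤ B)
    (k : Fin n) : |pd k f x| ≤ B := by
  rw [← norm_iteratedFDeriv_fderiv (n := 0), norm_iteratedFDeriv_zero, fderiv_sub_const] at hB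
  unfold pd
  rw [← Real.norm_eq_abs]
  refine ((fderiv ℝ f x).le_opNorm _).trans ?_
  rw [norm_single, mul_one]
  exact hB

/-- The derivatives of the tensors. -/
theorem tens_d (h : PkOk q d) (x : V n) (k i j : Fin n) :
    |pd k (fun y => d.s₁ y i j) x| ≤ q.ε / q.R ∧ |pd k (fun y => d.s₂ y i j) x| ≤ q.ε / q.R := by
  have h1 := h.rg.cl₁ i j 1 (by norm_num) x
  have h2 := h.rg.cl₂ i j 1 (by norm_num) x
  rw [pow_one, ← div_eq_mul_inv] at h1 h2
  exact ⟨pd_it h1 k, pd_it h2 k⟩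

/-- The difference of the tensors at one point. -/
theorem dst (hq : CdC n q) (h : PkOk q d) (x : V n) (i j : Fin n) :
    |d.s₁ x i j - d.s₂ x i j| ≤ q.ε * min 1 (Real.exp (-(100 * d.l x))) := by
  by_cases hx : q.R ^ 2 ≤ HY.sq x
  · rw [h.rg.eq x hx, sub_self, abs_zero]
    have := hq.ε0
    positivity
  · have hR := hq.inf.R0
    have h1 := h.rg.ds i j 0 (by norm_num) x
    rw [norm_iteratedFDeriv_zero, pow_zero, mul_one, Real.norm_eq_abs] at h1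
    have h2 : d.l x = lv n q.σ q.R d.kap d.Gs x := h.lev.eq x (by
      have := not_le.1 hx
      nlinarith)
    rw [h2, abs_sub_comm]
    exact h1

/-- The difference of the tensors at the two points. -/
def κs (n : ℕ) (q : Cst) (d : Pk n) (z : VV n) : ℝ :=
  n * (q.ε / q.R) * ‖dif z‖ + q.ε * min 1 (Real.exp (-(100 * d.l z.2)))

theorem mv1 {g : V n → ℝ} {B : ℝ} (hg : ContDiff ℝ ∞ g) (hB : ∀ x k, |pd k g x| ≤ B) (h0 : 0 ≤ B)
    (x y : V n) : |g x - g y| ≤ n * B * ‖x - y‖ :=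
  mv_le isOpen_univ convex_univ hg.contDiffOn h0 (fun x _ k => hB x k) (mem_univ x) (mem_univ y)

theorem kap (hq : CdC n q) (h : PkOk q d) (z : VV n) (i j : Fin n) :
    |d.s₁ z.1 i j - d.s₂ z.2 i j| ≤ κs n q d z := by
  have h1 := hq.dst h z.2 i j
  have hε : 0 ≤ q.ε / q.R := by
    have := hq.ε0
    have := hq.inf.R0
    positivity
  have h2 := mv1 (h.rg.sm₁ i j) (fun x k => (tens_d h x k i j).1) hε z.1 z.2
  have e : d.s₁ z.1 i j - d.s₂ z.2 i j = (d.s₁ z.1 i j - d.s₁ z.2 i j) +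
      (d.s₁ z.2 i j - d.s₂ z.2 i j) := by ring
  rw [e]
  exact (abs_add_le _ _).trans (add_le_add h2 h1)

theorem κs_nn (hq : CdC n q) (d : Pk n) (z : VV n) : 0 ≤ κs n q d z := by
  have := hq.ε0
  have := hq.inf.R0
  unfold κs; positivity

/-- The bounds of the slots. -/
structure Sb (d : Pk n) (a b κ ρ₀ : ℝ) (f : VV n → ℝ) (z : VV n) : Prop where
  Dx : ∀ i, |d.sx.D i f z| ≤ 3 / 2 * a / √ρ₀
  Dy : ∀ i, |d.sy.D i f z| ≤ 3 / 2 * a / √ρ₀
  Ds : ∀ i, |d.sx.D i f z + d.sy.D i f z| ≤ a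
  Gx : ∀ i, |Ch.Gr d.sx f i z| ≤ n * (3 * a / √ρ₀)
  Gy : ∀ i, |Ch.Gr d.sy f i z| ≤ n * (3 * a / √ρ₀)
  Gs : ∀ i, |Ch.Gr d.sx f i z + Ch.Gr d.sy f i z| ≤ n * (2 * a + 3 / 2 * (κ * a) / √ρ₀)
  Lx : |d.sx.Λ f z| ≤ n ^ 2 * ((5 * b + 2 * a) / ρ₀)
  Ly : |d.sy.Λ f z| ≤ n ^ 2 * ((5 * b + 2 * a) / ρ₀)
  Ls : |d.sx.Λ f z - d.sy.Λ f z| ≤ n ^ 2 * ((4 * b + 3 * a) / √ρ₀ + 9 / 4 * (κ * b) / ρ₀)

/-- **The slots of a function in the natural scale.** -/
theorem sb (hq : CdC n q) (h : PkOk q d) (hf : JB ep (wt ρ₀) f a b z) (h0 : 0 < ρ₀) (h1 : ρ₀ ≤ 1)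
    (ha : 0 ≤ a) (hb : 0 ≤ b) : Sb d a b (κs n q d z) ρ₀ f z := by
  have hR := hq.inf.R1
  have hε := hq.ε2
  have hε0 := hq.ε0
  have hδ : q.ε / q.R ≤ 1 := by
    rw [div_le_one (by linarith)]; linarith
  have t1 := fun i j => (hq.tens h z.1 i j).1
  have t2 := fun i j => (hq.tens h z.2 i j).2
  have d1 := fun k i j => ((tens_d h z.1 k i j).1).trans hδ
  have d2 := fun k i j => ((tens_d h z.2 k i j).2).trans hδ
  have f1 := fun i j => ((h.rg.sm₁ i j).differentiable (by simp)) z.1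
  have f2 := fun i j => ((h.rg.sm₂ i j).differentiable (by simp)) z.2
  have k := hq.kap h z
  have e1 : ∀ x : ℝ, 2 * (1 * x) = 2 * x := fun x => by ring
  have e2 : ∀ x : ℝ, 3 * (1 * x) = 3 * x := fun x => by ring
  have G := fun i => Gr_le (s₁ := d.s₁) (s₂ := d.s₂) hf h0 h1 ha t1 t2 i
  refine ⟨fun i => ?_, fun i => ?_, fun i => ?_, fun i => (G i).1, fun i => (G i).2, fun i => ?_,
    ?_, ?_, ?_⟩
  · have := (hf.dxy h0 h1 ha i).1
    have e := Dx1 (s := d.s₁) i f z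
    change |(sx d.s₁).D i f z| ≤ _
    rw [e]; exact this
  · have := (hf.dxy h0 h1 ha i).2.1
    have e := Dy1 (s := d.s₂) i f z
    change |(sy d.s₂).D i f z| ≤ _
    rw [e]; exact this
  · exact D_add (s₁ := d.s₁) (s₂ := d.s₂) hf i
  · exact Gr_add (s₁ := d.s₁) (s₂ := d.s₂) hf h0 h1 ha t1 k i
  · have := Lx_le (s := d.s₁) hf h0 h1 ha hb f1 t1 d1
    rwa [e1] at this
  · have := Ly_le (s := d.s₂) hf h0 h1 ha hb f2 t2 d2
    rwa [e1] at this
  · have := L_sub (s₁ := d.s₁) (s₂ := d.s₂) hf h0 h1 ha hb f1 f2 t1 k d1 d2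
    rwa [e2] at this

end CdC

theorem wt_one : (wt 1 : Fin n ⊕ Fin n → ℝ) = fun _ => 1 := by
  funext i
  rcases i with i | i <;> simp [wt]

namespace NrC

/-- The second order constant of the cut-off. -/
def A2 (d : Pk n) (q : Cst) (k : Zo) (z : VV n) : ℝ := BF ^ 2 * Sα d q k z ^ 2 + BF * Sβ d q k z

theorem A2_nn (hq : NrC n q) (d : Pk n) (k : Zo) (z : VV n) : 0 ≤ A2 d q k z := by
  have := hq.Sα_nn d k z
  have := hq.Sβ_nn d k z
  have := BF0
  unfold A2; positivity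

/-- **The cut-off of a zone near the diagonal, in the slots**, off the diagonal: `ρ₀ = ρ`. -/
theorem chS (hq : NrC n q) (h : PkOk q d) {k : Zo} (hk : Near k) (hp : 0 < rq (gi d.s₁) z)
    (h1 : rq (gi d.s₁) z ≤ 1) : CdC.Sb d (BF * Sα d q k z) (A2 d q k z) (CdC.κs n q d z)
      (rq (gi d.s₁) z) (d.ch q k) z := by
  have := hq.Sα_nn d k z
  have := BF0
  exact hq.cd.sb h (hq.chJ h hk hp) hp h1 (by positivity) (hq.A2_nn d k z)

/-- **The same off the layers `r`, `t`, `co`**, also on the diagonal: `ρ₀ = 1`. -/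
theorem chS1 (hq : NrC n q) (h : PkOk q d) {k : Zo} (hk : Near k) (hc : Calm d q k z) :
    CdC.Sb d (BF * Sα d q k z) (A2 d q k z) (CdC.κs n q d z) 1 (d.ch q k) z := by
  have := hq.Sα_nn d k z
  have := BF0
  have hj := hq.chJ1 h hk hc
  rw [← wt_one] at hj
  exact hq.cd.sb h hj one_pos le_rfl (by positivity) (hq.A2_nn d k z)

end NrC

end Vale.Agent.P088.R2.H932.EP
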