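import Vale.Agent.P088.R2.H932.EP.Pk2

/-!
# P088: the derivatives of the literal cut variables and cut-offs near the diagonal, continued
-/

open Set Filter
open scoped Topology ContDiff Matrix

noncomputable section

namespace Vale.Agent.P088.R2.H932.EP

open Vale.Agent.P088.LR Vale.Agent.P088.HY Vale.Agent.P088.R2.H961.GW Vale.Agent.P088.R2.H464.Cu
open Vale.Agent.P088.R2.H31.EP
open Vale.Agent.P088.R2.H475 (wR levG lam0 en_eq en_add en_smul sq0 th1)
open Vale.Agent.P088.R2.H867.EP (Cut Zo path sd Near CP Pair PB on on_nn on_le pr_JB near_path)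

variable {n : ℕ} {q : Cst} {d : Pk n} {z : VV n} {u : ℝ}

namespace NrC

/-- From the weights `1` to the weights `wt`. -/
theorem _root_.Vale.Agent.P088.R2.H932.EP.JB.towt {ρ a b : ℝ} {f : VV n → ℝ}
    (h : JB ep (fun _ => 1) f a b z) (ha : 0 ≤ a) (hb : 0 ≤ b) (h0 : 0 < ρ) (h1 : ρ ≤ 1) :
    JB ep (wt ρ) f a b z := by
  have h2 := h.mono_s (Λ := 1) (s' := wt ρ) ha hb (fun _ => zero_le_one) (fun i => by
    rcases i with i | i
    · simp [wt]
    · rw [one_mul]
      refine (one_le_inv₀ (Real.sqrt_pos.2 h0)).2 ?_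
      rw [Real.sqrt_le_one]
      exact h1)
  simpa using h2

/-- `u0` in the natural scale. -/
theorem ju0 (hq : NrC n q) (h : PkOk q d) (hz : d.u0 z ≤ 2 * d.l₀ q + 5 * q.R) :
    JB ep (fun _ => 1) d.u0 4 (820 * (q.σ / q.R)) z := by
  have i := hq.cd.inf
  have hl : d.l = levG n q.σ q.R d.kap d.Gs := h.lev.lit
  have hx : z.1 ∈ Ow n q.σ q.R := mem_Ow (y := z.2) (kap := d.kap) (Gs := d.Gs) i.σ0 i.σ1 i.R0 (by
    rw [← hl]; exact hz)
  have hy : z.2 ∈ Ow n q.σ q.R := mem_Ow (y := z.1) (kap := d.kap) (Gs := d.Gs) i.σ0 i.σ1 i.R0 (by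
    rw [← hl, add_comm]; exact hz)
  have hlb := Lb_Ow' (n := n) (kap := d.kap) (Gs := d.Gs) i.σ0 i.σ1 i.R1
  rw [← hl] at hlb
  have h1 := (jb_fst (Ow_open _ _) hlb hx).add (jb_snd (Ow_open _ _) hlb hy)
  have h2 : JB ep (fun _ => 1) d.u0 _ _ z := h1
  exact h2.mono (fun _ => zero_le_one) (by norm_num) (by linarith)

theorem j1_neg {t : ℝ} (ht : t < 0) : J1 Real.smoothTransition 0 0 t := by
  have h : Real.smoothTransition =ᶠ[𝓝 t] fun _ => 0 := by
    filter_upwards [gt_mem_nhds ht] with s hs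
    exact Real.smoothTransition.zero_of_nonpos hs.le
  exact (JB.const (0 : ℝ)).congr h

/-- **The variable of the cut `inf`** near the diagonal: `C / R`, `C / R²`. -/
theorem jinf (hq : NrC n q) (h : PkOk q d) (hz : d.u0 z ≤ 2 * d.l₀ q + 5 * q.R)
    (hρ : rq (gi d.s₁) z ≤ 1) :
    JB ep (fun _ => 1) (d.tinf q) (7000 * cSt / q.R) (7000 * cSt / q.R ^ 2) z := by
  have i := hq.cd.inf
  have hR := hq.R0
  have hR0 : 0 < q.R := by linarith
  have cs := cSt_one
  have hκ := i.κ0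
  have j0 := hq.ju0 h hz
  have σ1 := i.σ1
  have σ0 := i.σ0
  -- the first term vanishes
  have f1 : (fun z : VV n => Real.smoothTransition (4 * qq z / (q.κ₁ * q.R) ^ 2 - 1)) =ᶠ[𝓝 z]
      fun _ => 0 := by
    have hc : Continuous fun z : VV n => 4 * qq z / (q.κ₁ * q.R) ^ 2 - 1 :=
      ((continuous_const.mul qq_sm.continuous).div_const _).sub continuous_const
    have hlt : 4 * qq z / (q.κ₁ * q.R) ^ 2 - 1 < 0 := by
      have h1 := (hq.rb d h z).2.1
      have h2 := hq.Rk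
      rw [sub_neg, div_lt_one (by positivity)]
      nlinarith
    filter_upwards [hc.continuousAt.eventually (gt_mem_nhds hlt)] with w hw
    exact Real.smoothTransition.zero_of_nonpos hw.le
  have k1 := (JB.const (e := ep) (s := fun _ => 1) (z := z) (0 : ℝ)).congr f1
  -- the second term
  have a2 := (j0.cmul (-(10 * (q.σ / q.R)))).addc (-15)
  have k2 := jb_cmp a2 (j1_st _)
  -- the third term
  have a3 := (j0.cmul (20 / q.R)).addc (-(40 * d.l₀ q / q.R) - 92)
  have k3 := jb_cmp a3 (j1_st _)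
  have k4 := (k1.add k2).add k3
  have k5 : JB ep (fun _ => 1) (d.tinf q) _ _ z := k4.congr (Eventually.of_forall fun y => by
    unfold Pk.tinf
    congr 1
    · congr 2
      ring
    · congr 1
      field_simp
      ring)
  have e1 : |-(10 * (q.σ / q.R))| = 10 * (q.σ / q.R) := by
    rw [abs_neg, abs_of_pos (by positivity)]
  have e2 : |20 / q.R| = 20 / q.R := abs_of_pos (by positivity)
  rw [e1, e2] at k5
  refine k5.mono (fun _ => zero_le_one) ?_ ?_
  · rw [le_div_iff₀ hR0]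
    have e3 : (0 + cSt * (10 * (q.σ / q.R) * 4) + cSt * (20 / q.R * 4)) * q.R =
        cSt * (40 * q.σ + 80) := by
      field_simp
      ring
    rw [e3]
    nlinarith
  · rw [le_div_iff₀ (by positivity)]
    have e3 : (0 + (cSt * (10 * (q.σ / q.R) * 4) ^ 2 +
        cSt * (10 * (q.σ / q.R) * (820 * (q.σ / q.R)))) +
        (cSt * (20 / q.R * 4) ^ 2 + cSt * (20 / q.R * (820 * (q.σ / q.R))))) * q.R ^ 2 =
        cSt * (1600 * q.σ ^ 2 + 8200 * q.σ ^ 2 + 6400 + 16400 * q.σ) := by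
      field_simp
      ring
    rw [e3]
    have : q.σ ^ 2 ≤ 1 / 5000 := by nlinarith
    nlinarith

/-- **The cuts in `u` and `inf`** on the supports, with the weights `1` (also on the diagonal). -/
theorem tau1 (hq : NrC n q) (h : PkOk q d) {k : Zo} (hk : Near k) (hz : z ∈ tsupport (d.ch q k))
    {i : Cut} (hi : i = .inf ∨ i = .rs ∨ i = .e0 ∨ i = .eB) :
    JB ep (fun _ => 1) (d.cv q i) (αc (cN n q) q i) (βc (cN n q) q i) z := by
  have hc := hq.Cds h hk hz
  have hD := hq.dN_ge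
  have hD0 : 0 ≤ dN q := by linarith
  have hu := hq.u_le h hk hz
  have hC := hq.cV_le (n := n)
  have hR := hq.R0
  have c1 := hq.Ct0 1
  have c2 := hq.Ct0 2
  have c3 := cD_two
  have c4 := cSt_one
  have c5 := cXi_nonneg
  have l2 : (0.6931471803 : ℝ) < Real.log 2 := Real.log_two_gt_d9
  have hl2 : 0 < Real.log 2 := by linarith
  have hw : 1 / Real.log 2 ≤ dN q := by
    rw [div_le_iff₀ hl2]
    nlinarith
  have x1 : 0 ≤ 3 * cSt * q.ph.Ct 1 := by positivity
  have x2 : 0 ≤ 8 * cSt ^ 2 := by positivity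
  have x3 : 0 ≤ 2 * (1 + cXi) ^ 2 + (1 + cXi) := by positivity
  rcases hi with rfl | rfl | rfl | rfl
  · have hR0 : 0 < q.R := by linarith
    have h1 := cC_nn (n := n) hD0
    have h2 := cV_nn (n := n) hD0
    have h3 : 7000 * cSt ≤ cN n q := by unfold cN; linarith
    have h4 := hq.jinf h (z := z) (by linarith [hq.u0_le h hk hz]) hc.ρ1
    have h5 : d.cv q .inf = d.tinf q := rfl
    rw [h5]
    exact h4.mono (fun _ => zero_le_one) (div_le_div_of_nonneg_right h3 hR0.le)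
      (div_le_div_of_nonneg_right h3 (by positivity))
  · have j := hq.j1_VS h hu
    have j1 : |deriv (d.VS q) (d.u q z)| ≤ dN q := j.e1.trans (by unfold dN; linarith)
    have j2 : |deriv (deriv (d.VS q)) (d.u q z)| ≤ dN q := j.e2.trans (by unfold dN; linarith)
    exact (hc.tauV1 (u₀ := 0) (w₀ := 1) hD0 one_pos (by linarith) j.sm j1 j2).mono
      (fun _ => zero_le_one) hC hC
  · have j := hq.j1_V0 h hu
    have j1 := j.e1.trans (by unfold dN; linarith : (4 : ℝ) ≤ dN q)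
    have j2 := j.e2.trans (by unfold dN; linarith : 5 + 3 * q.ph.Ct 1 ≤ dN q)
    exact (hc.tauV1 (u₀ := -Real.log q.aC) (w₀ := Real.log 2) hD0 hl2 hw j.sm j1 j2).mono
      (fun _ => zero_le_one) hC hC
  · have j := hq.j1_VB h hu
    have j1 := j.e1.trans (by unfold dN; linarith : (9 : ℝ) ≤ dN q)
    have j2 := j.e2.trans (by unfold dN; linarith : 13 + 8 * q.ph.Ct 1 ≤ dN q)
    exact (hc.tauV1 (u₀ := 0) (w₀ := Real.log 2) hD0 hl2 hw j.sm j1 j2).mono
      (fun _ => zero_le_one) hC hC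

theorem αc_nn (hq : NrC n q) (i : Cut) : 0 ≤ αc (cN n q) q i := by
  have h := hq.cN_nn (n := n)
  have h1 := hq.η0
  have h2 := hq.R0
  cases i <;> simp only [αc] <;> positivity

theorem βc_nn (hq : NrC n q) (i : Cut) : 0 ≤ βc (cN n q) q i := by
  have h := hq.cN_nn (n := n)
  have h1 := hq.η0
  have h2 := hq.R0
  cases i <;> simp only [βc] <;> positivity

/-- **All cuts** on the supports off the diagonal. -/
theorem tau (hq : NrC n q) (h : PkOk q d) {k : Zo} (hk : Near k) (hz : z ∈ tsupport (d.ch q k))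
    (hp : 0 < rq (gi d.s₁) z) {i : Cut} (hi : i ∈ path k) (h1 : d.cv q i z < 1) :
    JB ep (wt (rq (gi d.s₁) z)) (d.cv q i) (αc (cN n q) q i) (βc (cN n q) q i) z := by
  have hc := hq.Cds h hk hz
  have hD := hq.dN_ge
  have hD0 : 0 ≤ dN q := by linarith
  have hs := hq.sm d h
  have hu := hq.u_le h hk hz
  have hC := hq.cC_le (n := n)
  have c0 := hq.αc_nn (n := n)
  have c0' := hq.βc_nn (n := n)
  rcases near_path hk hi with rfl | rfl | rfl | rfl | rfl | rfl | rfl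
  · exact (hq.tau1 h hk hz (Or.inl rfl)).towt (c0 _) (c0' _) hp hc.ρ1
  · exact (hq.tau1 h hk hz (Or.inr (Or.inl rfl))).towt (c0 _) (c0' _) hp hc.ρ1
  · exact (hc.tauR hD0 hs.cp.c₀ hp h1.le).mono (wt_nonneg _) hC hC
  · exact (hq.tau1 h hk hz (Or.inr (Or.inr (Or.inl rfl)))).towt (c0 _) (c0' _) hp hc.ρ1
  · exact (hq.tau1 h hk hz (Or.inr (Or.inr (Or.inr rfl)))).towt (c0 _) (c0' _) hp hc.ρ1
  · have t1 := h.top.kd 1 _ hu
    have t2 := h.top.kd 2 _ hu
    rw [show (1 + 2 : ℕ) = 3 from rfl, iteratedDeriv_succ, iteratedDeriv_succ, iteratedDeriv_one]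
      at t1
    rw [show (2 + 2 : ℕ) = 4 from rfl, iteratedDeriv_succ, iteratedDeriv_succ, iteratedDeriv_succ,
      iteratedDeriv_one] at t2
    have k0 := h.top.k0 (d.u q z)
    have c1 := hq.Ct0 1
    have c2 := hq.Ct0 2
    have c3 := cD_two
    have c4 := cSt_one
    have c5 := cXi_nonneg
    have x1 : 0 ≤ 3 * cSt * q.ph.Ct 1 := by positivity
    have x2 : 0 ≤ 8 * cSt ^ 2 := by positivity
    have x3 : 0 ≤ 2 * (1 + cXi) ^ 2 + (1 + cXi) := by positivity
    have d1 : q.ph.Ct 1 ≤ dN q := by unfold dN; linarith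
    have d2 : q.ph.Ct 2 ≤ dN q := by unfold dN; linarith
    exact (hc.tauT hD0 hs.cp.ct hp (hs.cp.Ks.contDiffAt.of_le (WithTop.coe_le_coe.2 le_top)) k0
      (t1.trans (mul_le_mul_of_nonneg_right d1 k0.le))
      (t2.trans (mul_le_mul_of_nonneg_right d2 k0.le)) h1.le).mono (wt_nonneg _) hC hC
  · have hcm : 0 ≤ q.σ / (q.CB * q.R) := by
      have h3 := hq.CB1
      have h4 := hq.R0
      have h5 := hq.cd.inf.σ0
      positivity
    have m := m1x_d hcm cXi_nonneg (d.ξ_is q) (d.u q z)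
    have m0 := hs.cp.M₁p (d.u q z)
    have hη := hq.η0
    have hΛ : Real.log q.Λ = 1 / q.ηc := Real.log_exp _
    have c1 := hq.Ct0 1
    have c2 := hq.Ct0 2
    have c3 := cD_two
    have c4 := cSt_one
    have c5 := cXi_nonneg
    have x1 : 0 ≤ 3 * cSt * q.ph.Ct 1 := by positivity
    have x2 : 0 ≤ 8 * cSt ^ 2 := by positivity
    have x3 : 0 ≤ 2 * (1 + cXi) ^ 2 := by positivity
    have d1 : 1 + cXi ≤ dN q := by unfold dN; linarith
    have d2 : 2 * (1 + cXi) ^ 2 + (1 + cXi) ≤ dN q := by unfold dN; linarith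
    have e := hc.tauM hD0 hs.cp.Λ hp
      (hs.cp.M₁s.contDiffAt.of_le (WithTop.coe_le_coe.2 le_top)) m0
      (m.1.trans (mul_le_mul_of_nonneg_right d1 m0.le))
      (m.2.trans (mul_le_mul_of_nonneg_right d2 m0.le))
    have e2 : cC n (dN q) / Real.log q.Λ = cC n (dN q) * q.ηc := by
      rw [hΛ]; field_simp
    have e3 : (d.cp q).Λ = q.Λ := rfl
    rw [e3, e2] at e
    have e4 := mul_le_mul_of_nonneg_right hC hη.le
    exact e.mono (wt_nonneg _) e4 e4

/-! ## The cut-offs -/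

/-- The first and second order sums over the layers which are on. -/
def Sα (d : Pk n) (q : Cst) (k : Zo) (z : VV n) : ℝ :=
  ∑ i ∈ path k, on (d.cv q i z) * αc (cN n q) q i

def Sβ (d : Pk n) (q : Cst) (k : Zo) (z : VV n) : ℝ :=
  ∑ i ∈ path k, on (d.cv q i z) * βc (cN n q) q i

theorem Sα_nn (hq : NrC n q) (d : Pk n) (k : Zo) (z : VV n) : 0 ≤ Sα d q k z :=
  Finset.sum_nonneg fun i _ => mul_nonneg (on_nn _) (hq.αc_nn i)

theorem Sβ_nn (hq : NrC n q) (d : Pk n) (k : Zo) (z : VV n) : 0 ≤ Sβ d q k z :=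
  Finset.sum_nonneg fun i _ => mul_nonneg (on_nn _) (hq.βc_nn i)

theorem BF0 : 0 ≤ BF := zero_le_one.trans Fl_PB.one

theorem dead {k : Zo} (hz : z ∉ tsupport (d.ch q k)) {s : Fin n ⊕ Fin n → ℝ} (hs : ∀ i, 0 ≤ s i)
    {a b : ℝ} (ha : 0 ≤ a) (hb : 0 ≤ b) : JB ep s (d.ch q k) a b z :=
  ((JB.const (0 : ℝ)).congr (notMem_tsupport_iff_eventuallyEq.1 hz)).mono hs ha hb

/-- **The cut-offs near the diagonal**, at every point off the diagonal. -/
theorem chJ (hq : NrC n q) (h : PkOk q d) {k : Zo} (hk : Near k) (hp : 0 < rq (gi d.s₁) z) :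
    JB ep (wt (rq (gi d.s₁) z)) (d.ch q k) (BF * Sα d q k z)
      (BF ^ 2 * Sα d q k z ^ 2 + BF * Sβ d q k z) z := by
  have hs := hq.sm d h
  have hB := BF0
  have h1 := hq.Sα_nn d k z
  have h2 := hq.Sβ_nn d k z
  by_cases hz : z ∈ tsupport (d.ch q k)
  · exact pr_JB (wt_nonneg _) Fl_PB isOpen_univ (sd k) (path k)
      (fun i _ => (hs.cv i).contDiffOn) (mem_univ z) (fun i _ => hq.αc_nn i)
      fun i hi _ h1 => hq.tau h hk hz hp hi h1
  · exact dead hz (wt_nonneg _) (by positivity) (by positivity)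

/-- The layers `r`, `t`, `co` of the zone `k` are off. -/
def Calm (d : Pk n) (q : Cst) (k : Zo) (z : VV n) : Prop :=
  ∀ i ∈ path k, i = .r ∨ i = .t ∨ i = .co → ¬(0 < d.cv q i z ∧ d.cv q i z < 1)

/-- **The cut-offs off the layers `r`, `t`, `co`**: with the weights `1`, also on the diagonal. -/
theorem chJ1 (hq : NrC n q) (h : PkOk q d) {k : Zo} (hk : Near k) (hc : Calm d q k z) :
    JB ep (fun _ => 1) (d.ch q k) (BF * Sα d q k z)
      (BF ^ 2 * Sα d q k z ^ 2 + BF * Sβ d q k z) z := by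
  have hs := hq.sm d h
  have hB := BF0
  have h1 := hq.Sα_nn d k z
  have h2 := hq.Sβ_nn d k z
  by_cases hz : z ∈ tsupport (d.ch q k)
  · refine pr_JB (fun _ => zero_le_one) Fl_PB isOpen_univ (sd k) (path k)
      (fun i _ => (hs.cv i).contDiffOn) (mem_univ z) (fun i _ => hq.αc_nn i) fun i hi h0 h3 => ?_
    rcases near_path hk hi with rfl | rfl | rfl | rfl | rfl | rfl | rfl
    · exact hq.tau1 h hk hz (Or.inl rfl)
    · exact hq.tau1 h hk hz (Or.inr (Or.inl rfl))
    · exact absurd ⟨h0, h3⟩ (hc _ hi (Or.inl rfl))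
    · exact hq.tau1 h hk hz (Or.inr (Or.inr (Or.inl rfl)))
    · exact hq.tau1 h hk hz (Or.inr (Or.inr (Or.inr rfl)))
    · exact absurd ⟨h0, h3⟩ (hc _ hi (Or.inr (Or.inl rfl)))
    · exact absurd ⟨h0, h3⟩ (hc _ hi (Or.inr (Or.inr rfl)))
  · exact dead hz (fun _ => zero_le_one) (by positivity) (by positivity)

/-- On the diagonal the layers `r`, `t`, `co` are off. -/
theorem calm_diag (hq : NrC n q) (h : PkOk q d) (k : Zo) (hp : rq (gi d.s₁) z = 0) :
    Calm d q k z := by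
  have hs := hq.sm d h
  rintro i - hi ⟨h0, -⟩
  rcases hi with rfl | rfl | rfl
  · have h3 : d.cv q .r z = tauR q.c₀ (rq (gi d.s₁)) z := rfl
    have h4 : tauR q.c₀ (rq (gi d.s₁)) z = -(1 / 3) := by
      have : q.c₀ ≠ 0 := hs.cp.c₀.ne'
      unfold tauR
      rw [hp]
      field_simp
      ring
    rw [h3, h4] at h0
    norm_num at h0
  · have h3 : d.cv q .t z = tauT q.cK (deriv (deriv d.Φ)) (d.u q) (rq (gi d.s₁)) z := rfl
    rw [h3] at h0
    unfold tauT at h0
    rw [hp] at h0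
    norm_num at h0
  · have h3 : d.cv q .co z = H867.EP.tauM q.Λ (d.m₁ q) (d.u q) (rq (gi d.s₁)) z := rfl
    rw [h3] at h0
    exact absurd (H867.EP.tauM_zero (M₁ := d.m₁ q) (u := d.u q) hs.cp.Λ hp) (not_lt.2 h0.le)

end NrC

end Vale.Agent.P088.R2.H932.EP
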