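import Vale.Agent.P088.R2.H509.EP.Lit2
import Vale.Agent.P088.R2.H404.INF.Alv

/-!
# P088: the bounds `Cd` for the data package

`pk_Cd`: near the diagonal and below the level `l₀ + 5 R / 2` all bounds of `Cd` hold for the literal
data with an absolute constant.
-/

open Set Filter
open scoped Topology ContDiff Matrix

noncomputable section

namespace Vale.Agent.P088.R2.H932.EP

open Vale.Agent.P088.LR Vale.Agent.P088.HY Vale.Agent.P088.R2.H961.GW Vale.Agent.P088.R2.H464.Cu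
open Vale.Agent.P088.R2.H31.EP
open Vale.Agent.P088.R2.H475 (wR levG lam0 en_eq en_add en_smul sq0 th1)
open Vale.Agent.P088.R2.H222 (Bk Ck cI dl)

variable {n : ℕ}

theorem Cd.monoD {D D' : ℝ} {O : Set (V n)} {g : MF n} {l : V n → ℝ} {μ : ℝ → ℝ} {u : VV n → ℝ}
    {z : VV n} (h : Cd D O g l μ u z) (hD : D ≤ D') : Cd D' O g l μ u z where
  op := h.op
  gn := ⟨h.gn.sm, h.gn.sy, h.gn.b0, fun x hx k i j => (h.gn.b1 x hx k i j).trans hD,
    fun x hx l k i j => (h.gn.b2 x hx l k i j).trans hD⟩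
  lb := ⟨h.lb.sm, fun x hx k => (h.lb.d1 x hx k).trans hD,
    fun x hx k j => (h.lb.d2 x hx k j).trans hD⟩
  hx := h.hx
  hy := h.hy
  hm := h.hm
  ρ1 := h.ρ1
  μs := h.μs
  μ1 := h.μ1.trans hD
  μ2 := h.μ2.trans hD
  uu := h.uu

/-! ## The level -/

/-- The set on which the level is controlled. -/
def Ow (n : ℕ) (σ R : ℝ) : Set (V n) := {x | HY.sq (wR n σ R x) < 4}

theorem cont_wR (σ R : ℝ) : ContDiff ℝ ∞ (wR n σ R) :=
  (H475.contDiff_wv σ).comp (contDiff_const_smul R⁻¹)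

theorem Ow_open (σ R : ℝ) : IsOpen (Ow n σ R) :=
  isOpen_lt ((H475.contDiff_sq.comp (cont_wR σ R)).continuous) continuous_const

theorem wR_comb (σ R : ℝ) (x y : V n) {a b : ℝ} (h : a + b = 1) :
    wR n σ R (a • x + b • y) = a • wR n σ R x + b • wR n σ R y := by
  funext i
  simp only [wR, H475.wv, Pi.smul_apply, Pi.add_apply, smul_eq_mul]
  have : b = 1 - a := by linarith
  subst this
  ring

theorem Ow_iff (σ R : ℝ) (x : V n) : x ∈ Ow n σ R ↔ √(HY.sq (wR n σ R x)) < 2 := by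
  unfold Ow
  rw [Set.mem_ofPred_eq, Real.sqrt_lt' (by norm_num)]
  norm_num

theorem Ow_conv (σ R : ℝ) : Convex ℝ (Ow n σ R) := by
  intro x hx y hy a b ha hb hab
  rw [Ow_iff] at *
  rw [wR_comb σ R x y hab]
  refine (en_add _ _).trans_lt ?_
  rw [en_smul, en_smul, abs_of_nonneg ha, abs_of_nonneg hb]
  rcases ha.eq_or_lt with h | h
  · have : b = 1 := by linarith
    subst h; subst this; linarith
  · have h1 := mul_lt_mul_of_pos_left hx h
    have h2 := mul_le_mul_of_nonneg_left hy.le hb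
    have h3 : a * 2 + b * 2 = 2 := by rw [← add_mul, hab, one_mul]
    linarith

/-- Polarization. -/
theorem pol {H : Fin n → Fin n → ℝ} {Λ : ℝ} (hs : ∀ i j, H i j = H j i)
    (h : ∀ U : V n, 0 ≤ ∑ i, ∑ j, U i * U j * H i j ∧
      ∑ i, ∑ j, U i * U j * H i j ≤ Λ * HY.sq U) (a b : Fin n) : |H a b| ≤ Λ := by
  have q : ∀ (x y : ℝ) (c d : Fin n), ∑ i, ∑ j, (Pi.single c x : V n) i *
      (Pi.single d y : V n) j * H i j = x * y * H c d := by
    intro x y c d
    simp [Pi.single_apply]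
  have s1 : ∀ (c : Fin n), HY.sq (Pi.single c 1 : V n) = 1 := fun c => by
    simp [HY.sq, Pi.single_apply]
  by_cases hab : a = b
  · subst hab
    have h1 := h (Pi.single a 1)
    rw [q, s1] at h1
    rw [abs_of_nonneg (by linarith [h1.1])]
    linarith [h1.2]
  · have e : ∀ t : ℝ, ∑ i, ∑ j, (Pi.single a 1 + Pi.single b t : V n) i *
        (Pi.single a 1 + Pi.single b t : V n) j * H i j = H a a + 2 * t * H a b + t ^ 2 * H b b := by
      intro t
      simp only [Pi.add_apply, add_mul, mul_add, Finset.sum_add_distrib, q]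
      rw [hs b a]
      ring
    have s2 : ∀ t : ℝ, HY.sq (Pi.single a 1 + Pi.single b t : V n) = 1 + t ^ 2 := by
      intro t
      have e2 : ∀ i, (Pi.single a 1 + Pi.single b t : V n) i ^ 2 =
          (if i = a then 1 else 0) + (if i = b then t ^ 2 else 0) := by
        intro i
        simp only [Pi.add_apply, Pi.single_apply]
        by_cases h1 : i = a <;> by_cases h2 : i = b
        · exact absurd (h1.symm.trans h2) hab
        · simp [h1, hab]
        · subst h2
          simp [h1]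
        · simp [h1, h2]
      unfold HY.sq
      rw [Finset.sum_congr rfl fun i _ => e2 i, Finset.sum_add_distrib]
      simp
    have h0 := h (Pi.single a 1)
    have h0' := h (Pi.single b 1)
    rw [q, s1] at h0 h0'
    have h1 := h (Pi.single a 1 + Pi.single b 1)
    have h2 := h (Pi.single a 1 + Pi.single b (-1))
    rw [e, s2] at h1 h2
    rw [abs_le]
    constructor <;> linarith [h0.1, h0'.1, h1.2, h2.2]

variable {σ R kap Gs : ℝ}

theorem Lb_Ow' (h0 : 0 < σ) (h1 : σ ≤ 1 / 5000) (hR : 1 ≤ R) :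
    Lb (Ow n σ R) 2 (410 * (σ / R)) (levG n σ R kap Gs) where
  sm := (H475.levG_smooth h0 h1).contDiffOn
  d1 x hx k := by
    have hR0 : 0 < R := by linarith
    have h2 := H475.grad_levG_le (n := n) (kap := kap) (Gs := Gs) h0 h1 hR0 x
    have h3 : pd k (levG n σ R kap Gs) x ^ 2 ≤ ∑ i, pd i (levG n σ R kap Gs) x ^ 2 :=
      Finset.single_le_sum (f := fun i => pd i (levG n σ R kap Gs) x ^ 2)
        (fun i _ => sq_nonneg _) (Finset.mem_univ k)
    have h4 : max 1 (HY.sq (wR n σ R x)) ≤ 4 := max_le (by norm_num) (le_of_lt hx)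
    refine abs_le_of_sq_le_sq ?_ (by norm_num)
    linarith
  d2 x _ k j := by
    have hR0 : 0 < R := by linarith
    exact pol (H := fun i j => pd j (pd i (levG n σ R kap Gs)) x) (Λ := 410 * (σ / R))
      (fun i j => by
        rw [H475.pd2_levG h0 h1 hR0, H475.pd2_levG h0 h1 hR0]
        by_cases hij : i = j
        · subst hij; rfl
        · have hji : j ≠ i := fun h => hij h.symm
          rw [if_neg hij, if_neg hji]; ring)
      (fun U => by
        have h3 := H475.hess_levG (kap := kap) (Gs := Gs) h0 h1 hR0 x U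
        refine ⟨le_trans ?_ h3.1, h3.2⟩
        have := sq0 U
        positivity) j k

theorem Lb_Ow (h0 : 0 < σ) (h1 : σ ≤ 1 / 5000) (hR : 1 ≤ R) :
    Lb (Ow n σ R) 2 1 (levG n σ R kap Gs) where
  sm := (Lb_Ow' (n := n) (kap := kap) (Gs := Gs) h0 h1 hR).sm
  d1 := (Lb_Ow' (n := n) (kap := kap) (Gs := Gs) h0 h1 hR).d1
  d2 x hx k j := by
    refine ((Lb_Ow' (n := n) (kap := kap) (Gs := Gs) h0 h1 hR).d2 x hx k j).trans ?_
    have h5 : σ / R ≤ σ := div_le_self h0.le hR
    linarith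

theorem mem_Ow (h0 : 0 < σ) (h1 : σ ≤ 1 / 5000) (hR : 0 < R) {x y : V n}
    (h : levG n σ R kap Gs x + levG n σ R kap Gs y ≤ 2 * lam0 R kap Gs + 5 * R) :
    x ∈ Ow n σ R := by
  by_contra hc
  have hc' : 4 ≤ HY.sq (wR n σ R x) := not_lt.1 hc
  have h2 := H475.th1_lt h0 h1
  rw [H475.levG_lit h0 h1 (by linarith)] at h
  have h3 := H475.levG_bot (n := n) (kap := kap) (Gs := Gs) h0 h1 hR y
  have h4 : 0 < R / (2 * σ) := by positivity
  have h5 := mul_le_mul_of_nonneg_left (by linarith : (3 : ℝ) ≤ HY.sq (wR n σ R x) - 1) h4.le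
  have h6 : 5000 * R ≤ R / σ := by
    rw [le_div_iff₀ h0]
    nlinarith
  have h7 : R / (2 * σ) * 3 = 3 / 2 * (R / σ) := by field_simp
  linarith

/-! ## The metric -/

section metric

variable {ε M : ℝ} {s₁ s₂ : MF n} {K : ℕ}

theorem ck_s (h : Rg K ε M σ R kap Gs s₁ s₂) (hε : 0 ≤ ε) (hR : 1 ≤ R) {k : ℕ} (hk : k ≤ K) :
    Ck k univ ε s₁ := fun i j =>
  ⟨isOpen_univ, ((h.sm₁ i j).sub contDiff_const).contDiffOn, fun m hm x _ => by
    refine (h.cl₁ i j m (hm.trans hk) x).trans ?_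
    have h1 : R⁻¹ ^ m ≤ 1 := pow_le_one₀ (inv_nonneg.2 (by linarith)) (inv_le_one_of_one_le₀ hR)
    exact mul_le_of_le_one_right hε h1⟩

theorem gi_symm (h : Rg K ε M σ R kap Gs s₁ s₂) (x : V n) (i j : Fin n) :
    gi s₁ x i j = gi s₁ x j i := by
  have h1 : (gi s₁ x)ᵀ = gi s₁ x := by
    unfold gi
    rw [Matrix.transpose_nonsing_inv, h.sy₁ x]
  calc gi s₁ x i j = (gi s₁ x)ᵀ i j := by rw [h1]
    _ = gi s₁ x j i := rfl

theorem pd_bk {f : V n → ℝ} {k : ℕ} {B c : ℝ} {O : Set (V n)} (h : Bk (k + 1) O B fun x => f x - c)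
    {x : V n} (hx : x ∈ O) (i : Fin n) : |pd i f x| ≤ B := by
  have h1 := h.fd.val hx
  rw [fderiv_sub_const] at h1
  unfold pd
  rw [← Real.norm_eq_abs]
  refine ((fderiv ℝ f x).le_opNorm _).trans ?_
  rw [norm_single, mul_one]
  exact h1

theorem pd2_bk {f : V n → ℝ} {k : ℕ} {B c : ℝ} {O : Set (V n)}
    (h : Bk (k + 2) O B fun x => f x - c) {x : V n} (hx : x ∈ O) (i j : Fin n) :
    |pd j (pd i f) x| ≤ B := by
  have h1 := h.fd.fd.val hx
  have h2 : fderiv ℝ (fun x => f x - c) = fderiv ℝ f := funext fun y => fderiv_sub_const c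
  rw [h2] at h1
  have hd : DifferentiableAt ℝ (fderiv ℝ f) x := by
    have := h.fd.diff hx
    rwa [h2] at this
  unfold pd
  have h3 := (hd.hasFDerivAt.clm_apply (hasFDerivAt_const (Pi.single i 1 : V n) x)).fderiv
  rw [h3]
  simp only [ContinuousLinearMap.comp_zero, zero_add, ContinuousLinearMap.flip_apply]
  rw [← Real.norm_eq_abs]
  refine ((fderiv ℝ (fderiv ℝ f) x (Pi.single j 1)).le_opNorm _).trans ?_
  rw [norm_single, mul_one]
  refine ((fderiv ℝ (fderiv ℝ f) x).le_opNorm _).trans ?_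
  rw [norm_single, mul_one]
  exact h1

/-- The constant for `ε`. -/
def cE (n : ℕ) : ℝ := 1 + n + n * (2 ^ 2 * cI n 2) * (2 * (n + 1)) * 2

theorem cE_pos : 0 < cE n := by
  have hc : 2 ≤ cI n 2 := H222.two_le_cI n 2
  unfold cE; positivity

theorem nr_gi (h : Rg K ε M σ R kap Gs s₁ s₂) (hK : 2 ≤ K) (h0 : 0 ≤ ε) (hR : 1 ≤ R)
    (hε : cE n * ε ≤ 1 / 2) (O : Set (V n)) : Nr O (1 / (2 * (n + 1))) 1 1 (gi s₁) := by
  have hn : (0 : ℝ) ≤ n := Nat.cast_nonneg n
  have hc : 2 ≤ cI n 2 := H222.two_le_cI n 2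
  have p1 : 0 ≤ n * (2 ^ 2 * cI n 2) * ε := by positivity
  have p2 : 0 ≤ n * (2 ^ 2 * cI n 2) * (2 * (n + 1)) * 2 * ε := by positivity
  have p3 : 0 ≤ n * ε := by positivity
  have hε' : ε + n * ε + n * (2 ^ 2 * cI n 2) * (2 * (n + 1)) * 2 * ε ≤ 1 / 2 := by
    refine le_trans (le_of_eq ?_) hε
    unfold cE; ring
  have e1 : ε ≤ 1 := by linarith
  have e2 : n * ε ≤ 1 / 2 := by linarith
  have e3 : n * (2 ^ 2 * cI n 2) * ε ≤ 1 / (2 * (n + 1)) := by
    rw [le_div_iff₀ (by positivity)]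
    linarith
  have e4 : 1 / (2 * ((n : ℝ) + 1)) ≤ 1 := by
    rw [div_le_one (by positivity)]; linarith
  have hk := ck_s h h0 hR hK
  have hi := hk.inv isOpen_univ e1 e2
  have hs : ∀ i j, ContDiff ℝ ∞ fun x => gi s₁ x i j := fun i j => by
    rw [← contDiffOn_univ]
    exact H222.inv_smooth hk.smooth (fun x hx => hk.det e2 hx) i j
  refine ⟨fun i j => (hs i j).contDiffOn, gi_symm h, fun x _ i j => ?_, fun x _ k i j => ?_,
    fun x _ l k i j => ?_⟩
  · exact ((hi i j).val (mem_univ x)).trans e3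
  · exact (pd_bk (k := 1) (hi i j) (mem_univ x) k).trans (e3.trans e4)
  · exact (pd2_bk (k := 0) (hi i j) (mem_univ x) k l).trans (e3.trans e4)

end metric

/-! ## Functions of one variable -/

/-- Bounds of the first two derivatives of a function of one variable. -/
abbrev J1 (f : ℝ → ℝ) (a b t : ℝ) : Prop := JB (fun _ : Unit => (1 : ℝ)) (fun _ => 1) f a b t

theorem fd_one (f : ℝ → ℝ) : (fun y => fderiv ℝ f y (1 : ℝ)) = deriv f :=
  funext fun _ => fderiv_apply_one_eq_deriv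

section one

variable {f h : ℝ → ℝ} {a b a' b' t : ℝ}

theorem J1.of (hf : ContDiffAt ℝ 2 f t) (h1 : |deriv f t| ≤ a) (h2 : |deriv (deriv f) t| ≤ b) :
    J1 f a b t where
  sm := hf
  d1 _ := by
    rw [mul_one, fderiv_apply_one_eq_deriv]
    exact h1
  d2 _ _ := by
    rw [mul_one, mul_one, fd_one, fderiv_apply_one_eq_deriv]
    exact h2

theorem J1.e1 (h : J1 f a b t) : |deriv f t| ≤ a := by
  have := h.d1 ()
  rwa [mul_one, fderiv_apply_one_eq_deriv] at this

theorem J1.e2 (h : J1 f a b t) : |deriv (deriv f) t| ≤ b := by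
  have := h.d2 () ()
  rwa [mul_one, mul_one, fd_one, fderiv_apply_one_eq_deriv] at this

/-- Composition. -/
theorem jb_cmp {E : Type*} [NormedAddCommGroup E] [NormedSpace ℝ E] {ι : Type*} {e : ι → E}
    {s : ι → ℝ} {u : E → ℝ} {z : E} {F : ℝ → ℝ} {A B : ℝ} (hu : JB e s u a b z)
    (hF : J1 F A B (u z)) : JB e s (fun y => F (u y)) (A * a) (B * a ^ 2 + A * b) z := by
  have hev : ∀ᶠ t in 𝓝 (u z), HasDerivAt F (deriv F t) t := by
    filter_upwards [ev_diff hF.sm] with t ht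
    exact ht.hasDerivAt
  have hd : DifferentiableAt ℝ (deriv F) (u z) := by
    have h1 := (hF.sm.fderiv_right (m := 1) (by norm_num)).differentiableAt (by norm_num)
    have h2 : deriv F = fun t => fderiv ℝ F t 1 := funext fun t => fderiv_apply_one_eq_deriv.symm
    rw [h2]
    exact h1.clm_apply (differentiableAt_const _)
  exact hu.comp hF.sm hev hd.hasDerivAt hF.e1 hF.e2

theorem J1.lin (c e : ℝ) : J1 (fun t => c * t + e) |c| 0 t := by
  have h1 : deriv (fun t : ℝ => c * t + e) = fun _ => c := by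
    funext y
    have : HasDerivAt (fun t : ℝ => c * t + e) (c * 1) y :=
      ((hasDerivAt_id y).const_mul c).add_const e
    rw [this.deriv, mul_one]
  refine J1.of ?_ (by rw [h1]) (by rw [h1]; simp)
  exact ((contDiff_const.mul contDiff_id).add contDiff_const).contDiffAt

end one

/-- The smooth transition. -/
theorem st_stp : H867.EP.Stp Real.smoothTransition :=
  ⟨Real.smoothTransition.contDiff, Real.smoothTransition.nonneg, Real.smoothTransition.le_one,
    ⟨0, fun _ h => Real.smoothTransition.zero_of_nonpos h⟩,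
    ⟨1, fun _ h => Real.smoothTransition.one_of_one_le h⟩⟩

theorem st_bd : ∃ B, 1 ≤ B ∧ ∀ t, J1 Real.smoothTransition B B t := by
  obtain ⟨B1, h1, H1⟩ := st_stp.bdd 1
  obtain ⟨B2, h2, H2⟩ := st_stp.bdd 2
  refine ⟨B1 + B2, by linarith, fun t => J1.of (st_stp.sm.contDiffAt.of_le
    (WithTop.coe_le_coe.2 le_top)) ?_ ?_⟩
  · have := H1 t
    rw [iteratedDeriv_one] at this
    linarith
  · have := H2 t
    rw [iteratedDeriv_succ, iteratedDeriv_one] at this
    linarith

/-- The constant of the smooth transition. -/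
def cSt : ℝ := st_bd.choose

theorem cSt_one : 1 ≤ cSt := st_bd.choose_spec.1

theorem j1_st (t : ℝ) : J1 Real.smoothTransition cSt cSt t := st_bd.choose_spec.2 t

/-! ## The correction -/

theorem muC_nn (j : ℕ) : 0 ≤ muC j := H313.Tp.exists_all.choose_spec.1 j

/-- The constant of the correction. -/
def cMu : ℝ := muC 0 + muC 1 + cSt + muC 0 * cSt

theorem cMu_nn : 0 ≤ cMu := by
  have h0 := muC_nn 0
  have h1 := muC_nn 1
  have h2 := cSt_one
  unfold cMu; positivity

variable {q : Cst} {d : Pk n}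

theorem j1_mu (hR : 1 ≤ q.R) (h : PkOk q d) (t : ℝ) : J1 (d.μc q) cMu cMu t := by
  have hb := h.ph.b0
  have c0 := muC_nn 0
  have c1 := muC_nn 1
  have c2 := cSt_one
  have e1 : J1 d.μ (muC 0 * (1 / 8)) (muC 1 * (1 / 8)) t := by
    refine J1.of (h.ph.isμ.sm.contDiffAt.of_le (WithTop.coe_le_coe.2 le_top)) ?_ ?_
    · have := h.ph.isμ.bj 0 t
      rw [iteratedDeriv_one] at this
      exact this.trans (mul_le_mul_of_nonneg_left hb c0)
    · have := h.ph.isμ.bj 1 t
      rw [iteratedDeriv_succ, iteratedDeriv_one] at this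
      exact this.trans (mul_le_mul_of_nonneg_left hb c1)
  have e2 : J1 (fun s => Real.smoothTransition (2 / q.R * s + (-(2 * (d.l₀ q / q.R)) - 1))) _ _ t :=
    jb_cmp (J1.lin (2 / q.R) (-(2 * (d.l₀ q / q.R)) - 1)) (j1_st _)
  have e3 := ((JB.const (e := fun _ : Unit => (1 : ℝ)) (s := fun _ => 1) (z := t) (1 : ℝ)).sub e2)
  have e4 := e1.mul e3 (F := 1 / 8) (H := 1) (h.ph.μb t) (by
    have h1 := Real.smoothTransition.nonneg (2 / q.R * t + (-(2 * (d.l₀ q / q.R)) - 1))
    have h2 := Real.smoothTransition.le_one (2 / q.R * t + (-(2 * (d.l₀ q / q.R)) - 1))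
    rw [abs_le]
    constructor <;> linarith)
  have e5 : J1 (d.μc q) _ _ t := e4.congr (Eventually.of_forall fun s => by
    unfold Pk.μc
    congr 3
    ring)
  have hR0 : 0 < q.R := by linarith
  have k1 : |2 / q.R| ≤ 2 := by
    rw [abs_of_pos (by positivity), div_le_iff₀ hR0]
    linarith
  have k2 : |2 / q.R| ^ 2 ≤ 4 := by
    have := pow_le_pow_left₀ (abs_nonneg (2 / q.R)) k1 2
    linarith
  have k0 := abs_nonneg (2 / q.R)
  have m1 := mul_le_mul_of_nonneg_left k1 (by linarith : 0 ≤ cSt)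
  have m2 := mul_le_mul_of_nonneg_left k2 (by linarith : 0 ≤ cSt)
  have m3 := mul_le_mul_of_nonneg_left m1 c0
  have m4 : 0 ≤ muC 0 * cSt := by positivity
  refine e5.mono (fun _ => zero_le_one) ?_ ?_
  · unfold cMu; linarith
  · unfold cMu; linarith

/-! ## The bounds for the package -/

/-- The absolute constant. -/
def cD : ℝ := 2 + cMu

theorem cD_two : 2 ≤ cD := by
  have := cMu_nn
  unfold cD; linarith

/-- The conditions on the constants. -/
structure CdC (n : ℕ) (q : Cst) : Prop where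
  inf : H404.INF.InfC q
  ε0 : 0 < q.ε
  ε1 : cE n * q.ε ≤ 1 / 2

theorem evCd (n : ℕ) : EvC (CdC n) := by
  have h1 : EvC fun q => cE n * q.ε ≤ 1 / 2 :=
    EvC.at_ε (fun _ t => cE n * t ≤ 1 / 2) fun _ =>
      (sml_le (a := 1 / 2 / cE n) (by have := cE_pos (n := n); positivity)).mono fun t ht => by
        rw [le_div_iff₀ (cE_pos (n := n))] at ht
        linarith
  refine ((H404.INF.evInf.and EvC.pos).and h1).mono ?_
  rintro q ⟨⟨a, b⟩, c⟩
  exact ⟨a, b.2.2.2.2.1, c⟩

/-- **All bounds of `Cd` for the package**: near the diagonal, below the level `l₀ + 5 R / 2`. -/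
theorem CdC.cd {z : VV n} (hq : CdC n q) (h : PkOk q d) (hr : d.r2 z < 1)
    (hu : d.u0 z ≤ 2 * d.l₀ q + 5 * q.R) :
    Cd cD (Ow n q.σ q.R) (gi d.s₁) d.l (d.μc q) (d.u q) z := by
  have h2 := cD_two
  have h3 : cMu ≤ cD := by unfold cD; linarith
  have i := hq.inf
  have hl : d.l = levG n q.σ q.R d.kap d.Gs := h.lev.lit
  have hx : z.1 ∈ Ow n q.σ q.R := mem_Ow (y := z.2) (kap := d.kap) (Gs := d.Gs) i.σ0 i.σ1 i.R0 (by
    rw [← hl]; exact hu)
  have hy : z.2 ∈ Ow n q.σ q.R := mem_Ow (y := z.1) (kap := d.kap) (Gs := d.Gs) i.σ0 i.σ1 i.R0 (by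
    rw [← hl, add_comm]; exact hu)
  have hm : mid z ∈ Ow n q.σ q.R := by
    have := Ow_conv q.σ q.R hx hy (by norm_num : (0 : ℝ) ≤ 1 / 2) (by norm_num : (0 : ℝ) ≤ 1 / 2)
      (by norm_num)
    rw [← smul_add] at this
    exact this
  have g := nr_gi h.rg (by norm_num) hq.ε0.le i.R1 hq.ε1 (Ow n q.σ q.R)
  have hlb := Lb_Ow (n := n) (kap := d.kap) (Gs := d.Gs) i.σ0 i.σ1 i.R1
  have hr' : 2 * rq (gi d.s₁) z < 1 := hr
  exact
    { op := Ow_open _ _
      gn := ⟨g.sm, g.sy, g.b0, fun x hx k i j => (g.b1 x hx k i j).trans (by linarith),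
        fun x hx l k i j => (g.b2 x hx l k i j).trans (by linarith)⟩
      lb := by
        rw [hl]
        exact ⟨hlb.sm, fun x hx k => (hlb.d1 x hx k).trans h2,
          fun x hx k j => (hlb.d2 x hx k j).trans (by linarith)⟩
      hx := hx
      hy := hy
      hm := hm
      ρ1 := by linarith
      μs := (h.μ_sm).contDiffAt.of_le (WithTop.coe_le_coe.2 le_top)
      μ1 := ((j1_mu i.R1 h _).e1).trans h3
      μ2 := ((j1_mu i.R1 h _).e2).trans h3
      uu := by
        refine uc_near (rq_c2 (Ow_open _ _) g hm).continuousAt ?_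
        filter_upwards [gt_mem_nhds hr'] with t ht
        exact h.χ1 t ht.le }

theorem pk_Cd (n : ℕ) : EvC fun q => ∀ d : Pk n, PkOk q d → ∀ z, d.r2 z < 1 →
    d.u0 z ≤ 2 * d.l₀ q + 5 * q.R → Cd cD (Ow n q.σ q.R) (gi d.s₁) d.l (d.μc q) (d.u q) z :=
  (evCd n).mono fun _ hq _ h _ hr hu => hq.cd h hr hu

end Vale.Agent.P088.R2.H932.EP
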