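import Vale.Agent.P088.R2.H932.EP.Wf
import Vale.Agent.P088.R2.H932.EP.Pk4

/-!
# P088: the weight of the package near the diagonal, in the slots
-/

open Set Filter
open scoped Topology ContDiff Matrix

noncomputable section

namespace Vale.Agent.P088.R2.H932.EP

open Vale.Agent.P088.LR Vale.Agent.P088.HY Vale.Agent.P088.R2.H961.GW Vale.Agent.P088.R2.H464.Cu
open Vale.Agent.P088.R2.H31.EP

variable {n : ℕ} {δ μ₂ : ℝ} {z : VV n}

/-! ## The slots -/

section slots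

variable {q : Cst} {d : Pk n} {C s E N K κ : ℝ} {W : VV n → ℝ}

theorem Wd.congr {W' : VV n → ℝ} (h : Wd C δ μ₂ s E N K W z) (e : W' =ᶠ[𝓝 z] W) :
    Wd C δ μ₂ s E N K W' z where
  sm := h.sm.congr_of_eventuallyEq e
  p i := by rw [e.fderiv_eq]; exact h.p i
  q i := by rw [e.fderiv_eq]; exact h.q i
  pp i j := by rw [fd2_congr e]; exact h.pp i j
  pq i j := by rw [fd2_congr e]; exact h.pq i j
  qp i j := by rw [fd2_congr e]; exact h.qp i j
  qq i j := by rw [fd2_congr e]; exact h.qq i j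

/-- The bounds of the weight in the slots. -/
structure Ws (d : Pk n) (C δ μ₂ s κ E N K : ℝ) (W : VV n → ℝ) (z : VV n) : Prop where
  Dx : ∀ i, |d.sx.D i W z| ≤ C * (N + E * s)
  Dy : ∀ i, |d.sy.D i W z| ≤ C * (N + E * s)
  Ds : ∀ i, |d.sx.D i W z + d.sy.D i W z| ≤ C * (N + E * s ^ 2)
  xx : ∀ i j, |d.sx.D i (d.sx.D j W) z| ≤ C * (K + N * (δ + μ₂) + E)
  yy : ∀ i j, |d.sy.D i (d.sy.D j W) z| ≤ C * (K + N * (δ + μ₂) + E)
  xy : ∀ i j, |d.sx.D i (d.sy.D j W) z| ≤ C * (K + N * (δ + μ₂) + E)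
  yx : ∀ i j, |d.sy.D i (d.sx.D j W) z| ≤ C * (K + N * (δ + μ₂) + E)
  sx : ∀ i j, |d.sx.D i (d.sx.D j W) z + d.sy.D i (d.sx.D j W) z| ≤
    C * (K + N * (δ + μ₂) + E * s)
  sy : ∀ i j, |d.sx.D i (d.sy.D j W) z + d.sy.D i (d.sy.D j W) z| ≤
    C * (K + N * (δ + μ₂) + E * s)
  xs : ∀ i j, |d.sx.D i (d.sx.D j W) z + d.sx.D i (d.sy.D j W) z| ≤
    C * (K + N * (δ + μ₂) + E * s)
  ys : ∀ i j, |d.sy.D i (d.sx.D j W) z + d.sy.D i (d.sy.D j W) z| ≤
    C * (K + N * (δ + μ₂) + E * s)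
  ss : ∀ i j, |d.sx.D i (d.sx.D j W) z + d.sx.D i (d.sy.D j W) z +
    (d.sy.D i (d.sx.D j W) z + d.sy.D i (d.sy.D j W) z)| ≤ C * (K + N * (δ + μ₂) + E * s ^ 2)
  df : ∀ i j, |d.sx.D i (d.sx.D j W) z - d.sy.D i (d.sy.D j W) z| ≤
    C * (K * (δ * s) + N * δ + E * s)
  Lx : |d.sx.Λ W z| ≤ C * (K + N * (δ + μ₂) + E)
  Ly : |d.sy.Λ W z| ≤ C * (K + N * (δ + μ₂) + E)
  Ls : |d.sx.Λ W z - d.sy.Λ W z| ≤ C * (K * (δ * s) + N * δ + E * s +
    κ * (K + N * (δ + μ₂) + E))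

theorem D_x (d : Pk n) (i : Fin n) (f : VV n → ℝ) (y : VV n) :
    d.sx.D i f y = fderiv ℝ f y (Pi.single i 1, 0) := Dx1 (s := d.s₁) i f y

theorem D_y (d : Pk n) (i : Fin n) (f : VV n → ℝ) (y : VV n) :
    d.sy.D i f y = fderiv ℝ f y (0, Pi.single i 1) := Dy1 (s := d.s₂) i f y

/-- All second derivatives in the slots through `D_p`, `D_q`. -/
theorem DD4 (d : Pk n) (hW : ContDiffAt ℝ 2 W z) (i j : Fin n) :
    d.sx.D i (d.sx.D j W) z =
      1 / 2 * (1 / 2 * fderiv ℝ (fun y => fderiv ℝ W y (ep (Sum.inl j))) z (ep (Sum.inl i)) +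
        1 * fderiv ℝ (fun y => fderiv ℝ W y (ep (Sum.inl j))) z (ep (Sum.inr i))) +
      1 * (1 / 2 * fderiv ℝ (fun y => fderiv ℝ W y (ep (Sum.inr j))) z (ep (Sum.inl i)) +
        1 * fderiv ℝ (fun y => fderiv ℝ W y (ep (Sum.inr j))) z (ep (Sum.inr i))) ∧
    d.sy.D i (d.sx.D j W) z =
      1 / 2 * (1 / 2 * fderiv ℝ (fun y => fderiv ℝ W y (ep (Sum.inl j))) z (ep (Sum.inl i)) +
        -1 * fderiv ℝ (fun y => fderiv ℝ W y (ep (Sum.inl j))) z (ep (Sum.inr i))) +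
      1 * (1 / 2 * fderiv ℝ (fun y => fderiv ℝ W y (ep (Sum.inr j))) z (ep (Sum.inl i)) +
        -1 * fderiv ℝ (fun y => fderiv ℝ W y (ep (Sum.inr j))) z (ep (Sum.inr i))) ∧
    d.sx.D i (d.sy.D j W) z =
      1 / 2 * (1 / 2 * fderiv ℝ (fun y => fderiv ℝ W y (ep (Sum.inl j))) z (ep (Sum.inl i)) +
        1 * fderiv ℝ (fun y => fderiv ℝ W y (ep (Sum.inl j))) z (ep (Sum.inr i))) +
      -1 * (1 / 2 * fderiv ℝ (fun y => fderiv ℝ W y (ep (Sum.inr j))) z (ep (Sum.inl i)) +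
        1 * fderiv ℝ (fun y => fderiv ℝ W y (ep (Sum.inr j))) z (ep (Sum.inr i))) ∧
    d.sy.D i (d.sy.D j W) z =
      1 / 2 * (1 / 2 * fderiv ℝ (fun y => fderiv ℝ W y (ep (Sum.inl j))) z (ep (Sum.inl i)) +
        -1 * fderiv ℝ (fun y => fderiv ℝ W y (ep (Sum.inl j))) z (ep (Sum.inr i))) +
      -1 * (1 / 2 * fderiv ℝ (fun y => fderiv ℝ W y (ep (Sum.inr j))) z (ep (Sum.inl i)) +
        -1 * fderiv ℝ (fun y => fderiv ℝ W y (ep (Sum.inr j))) z (ep (Sum.inr i))) := by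
  have ex : (fun y => d.sx.D j W y) = fun y => fderiv ℝ W y (Pi.single j 1, 0) :=
    funext fun y => D_x d j W y
  have ey : (fun y => d.sy.D j W y) = fun y => fderiv ℝ W y (0, Pi.single j 1) :=
    funext fun y => D_y d j W y
  refine ⟨?_, ?_, ?_, ?_⟩
  · rw [D_x, show d.sx.D j W = fun y => fderiv ℝ W y (Pi.single j 1, 0) from ex, ex_ep j, ex_ep i]
    exact fd2_lin hW _ _ _ _ _ _ _ _
  · rw [D_y, show d.sx.D j W = fun y => fderiv ℝ W y (Pi.single j 1, 0) from ex, ex_ep j, ey_ep i]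
    exact fd2_lin hW _ _ _ _ _ _ _ _
  · rw [D_x, show d.sy.D j W = fun y => fderiv ℝ W y (0, Pi.single j 1) from ey, ey_ep j, ex_ep i]
    exact fd2_lin hW _ _ _ _ _ _ _ _
  · rw [D_y, show d.sy.D j W = fun y => fderiv ℝ W y (0, Pi.single j 1) from ey, ey_ep j, ey_ep i]
    exact fd2_lin hW _ _ _ _ _ _ _ _

theorem Wd.ws (h : Wd C δ μ₂ s E N K W z) (hC : 0 ≤ C) (hδ : 0 ≤ δ) (hδ1 : δ ≤ 1) (hμ : 0 ≤ μ₂)
    (hs0 : 0 ≤ s) (hs1 : s ≤ 1) (hE : 0 ≤ E) (hN : 0 ≤ N) (hK : 0 ≤ K) (hq : CdC n q)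
    (hd : PkOk q d) (he : q.ε / q.R ≤ δ) (hκ : CdC.κs n q d z ≤ κ) :
    Ws d (20 * (1 + n) ^ 2 * C) δ μ₂ s κ E N K W z := by
  have hn : (0 : ℝ) ≤ n := Nat.cast_nonneg n
  have q1 : s ^ 2 ≤ s := by nlinarith
  have c0 : (1 : ℝ) ≤ (1 + n) ^ 2 := one_le_pow₀ (by linarith)
  have cn : (n : ℝ) ^ 2 ≤ (1 + n) ^ 2 := pow_le_pow_left₀ hn (by linarith) 2
  have c1 : 20 * C ≤ 20 * (1 + n) ^ 2 * C := by
    have := mul_le_mul_of_nonneg_right c0 (by positivity : 0 ≤ 20 * C)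
    linarith
  have up : ∀ {X : ℝ}, 0 ≤ X → 20 * (C * X) ≤ 20 * (1 + n) ^ 2 * C * X := fun hX => by
    have := mul_le_mul_of_nonneg_right c1 hX
    linarith
  have k1 : 0 ≤ N * (δ + μ₂) := by positivity
  have k2 : 0 ≤ E * s := by positivity
  have k3 : E * s ^ 2 ≤ E * s := mul_le_mul_of_nonneg_left q1 hE
  have k4 : 0 ≤ E * s ^ 2 := by positivity
  have k5 : E * s ≤ E := mul_le_of_le_one_right hE hs1
  have k6 : δ * s ≤ 1 := mul_le_one₀ hδ1 hs0 hs1
  have k7 : N * (δ * s) ≤ N := mul_le_of_le_one_right hN k6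
  have k8 : K * (δ * s) ≤ K := mul_le_of_le_one_right hK k6
  have k9 : 0 ≤ K * (δ * s) := by positivity
  have l1 : N * δ ≤ N * (δ + μ₂) := mul_le_mul_of_nonneg_left (by linarith) hN
  have l2 : 0 ≤ N * δ := by positivity
  have l3 : K * (δ * s) ^ 2 ≤ K := mul_le_of_le_one_right hK (pow_le_one₀ (by positivity) k6)
  -- first derivatives
  have f1 : ∀ i, |fderiv ℝ W z (ep (Sum.inl i))| ≤ C * (N + E * s) := fun i =>
    (h.p i).trans (mul_le_mul_of_nonneg_left (by linarith) hC)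
  have f2 : ∀ i, |fderiv ℝ W z (ep (Sum.inr i))| ≤ C * (N + E * s) := fun i =>
    (h.q i).trans (mul_le_mul_of_nonneg_left (by linarith) hC)
  have X0 : 0 ≤ N + E * s := by linarith
  have dx : ∀ i, |d.sx.D i W z| ≤ 2 * (C * (N + E * s)) := fun i => by
    rw [D_x, ex_ep, map_add, map_smul, map_smul, smul_eq_mul, smul_eq_mul]
    have h1 := f1 i
    have h2 := f2 i
    have : 0 ≤ C * (N + E * s) := by positivity
    rw [abs_le] at h1 h2 ⊢
    constructor <;> linarith [h1.1, h1.2, h2.1, h2.2]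
  have dy : ∀ i, |d.sy.D i W z| ≤ 2 * (C * (N + E * s)) := fun i => by
    rw [D_y, ey_ep, map_add, map_smul, map_smul, smul_eq_mul, smul_eq_mul]
    have h1 := f1 i
    have h2 := f2 i
    have : 0 ≤ C * (N + E * s) := by positivity
    rw [abs_le] at h1 h2 ⊢
    constructor <;> linarith [h1.1, h1.2, h2.1, h2.2]
  -- second derivatives
  set Q := K + N * (δ + μ₂) + E with hQ
  set Qs := K + N * (δ + μ₂) + E * s with hQs
  have Q0 : 0 ≤ Q := by linarith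
  have Qs0 : 0 ≤ Qs := by linarith
  have QQ : Qs ≤ Q := by linarith
  have g1 : ∀ i j, |fderiv ℝ (fun y => fderiv ℝ W y (ep (Sum.inl i))) z (ep (Sum.inl j))| ≤
      C * Qs := fun i j => (h.pp i j).trans (mul_le_mul_of_nonneg_left (by linarith) hC)
  have g2 : ∀ i j, |fderiv ℝ (fun y => fderiv ℝ W y (ep (Sum.inl i))) z (ep (Sum.inr j))| ≤
      C * Qs := fun i j => (h.pq i j).trans (mul_le_mul_of_nonneg_left (by linarith) hC)
  have g3 : ∀ i j, |fderiv ℝ (fun y => fderiv ℝ W y (ep (Sum.inr i))) z (ep (Sum.inl j))| ≤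
      C * Qs := fun i j => (h.qp i j).trans (mul_le_mul_of_nonneg_left (by linarith) hC)
  have g4 : ∀ i j, |fderiv ℝ (fun y => fderiv ℝ W y (ep (Sum.inr i))) z (ep (Sum.inr j))| ≤
      C * Q := fun i j => (h.qq i j).trans (mul_le_mul_of_nonneg_left (by linarith) hC)
  have CQ := mul_le_mul_of_nonneg_left QQ hC
  have CQ0 : 0 ≤ C * Q := by positivity
  have CQs0 : 0 ≤ C * Qs := by positivity
  have xx : ∀ i j, |d.sx.D i (d.sx.D j W) z| ≤ 3 * (C * Q) := fun i j => by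
    rw [(DD4 d h.sm i j).1]
    have a1 := abs_le.1 (g1 j i)
    have a2 := abs_le.1 (g2 j i)
    have a3 := abs_le.1 (g3 j i)
    have a4 := abs_le.1 (g4 j i)
    rw [abs_le]
    constructor <;> linarith [a1.1, a1.2, a2.1, a2.2, a3.1, a3.2, a4.1, a4.2]
  have yy : ∀ i j, |d.sy.D i (d.sy.D j W) z| ≤ 3 * (C * Q) := fun i j => by
    rw [(DD4 d h.sm i j).2.2.2]
    have a1 := abs_le.1 (g1 j i)
    have a2 := abs_le.1 (g2 j i)
    have a3 := abs_le.1 (g3 j i)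
    have a4 := abs_le.1 (g4 j i)
    rw [abs_le]
    constructor <;> linarith [a1.1, a1.2, a2.1, a2.2, a3.1, a3.2, a4.1, a4.2]
  have df : ∀ i j, |d.sx.D i (d.sx.D j W) z - d.sy.D i (d.sy.D j W) z| ≤
      2 * (C * (K * (δ * s) + N * δ + E * s)) := fun i j => by
    rw [(DD4 d h.sm i j).1, (DD4 d h.sm i j).2.2.2]
    have a2 := abs_le.1 (h.pq j i)
    have a3 := abs_le.1 (h.qp j i)
    rw [abs_le]
    constructor <;> linarith [a2.1, a2.2, a3.1, a3.2]
  have DF0 : 0 ≤ K * (δ * s) + N * δ + E * s := by positivity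
  -- the tensors
  have T1 := fun i j => (hq.tens hd z.1 i j).1
  have T2 := fun i j => (hq.tens hd z.2 i j).2
  have D1 := fun k i j => ((CdC.tens_d hd z.1 k i j).1).trans he
  have D2 := fun k i j => ((CdC.tens_d hd z.2 k i j).2).trans he
  have F1 := fun i j => ((hd.rg.sm₁ i j).differentiable (by simp)) z.1
  have F2 := fun i j => ((hd.rg.sm₂ i j).differentiable (by simp)) z.2
  have kp := fun i j => (hq.kap hd z i j).trans hκ
  have eLx : d.sx.Λ W z = ∑ i, ∑ j, (d.s₁ z.1 i j * d.sx.D i (d.sx.D j W) z +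
      pd i (fun y => d.s₁ y i j) z.1 * d.sx.D j W z) := by
    have h1 : d.sx.Λ W z = _ := Lx_eq (s := d.s₁) (f := W) F1
    rw [h1]
    refine Finset.sum_congr rfl fun i _ => Finset.sum_congr rfl fun j _ => ?_
    rw [← DDx (s := d.s₁), ← D_x d j W z]
    rfl
  have eLy : d.sy.Λ W z = ∑ i, ∑ j, (d.s₂ z.2 i j * d.sy.D i (d.sy.D j W) z +
      pd i (fun y => d.s₂ y i j) z.2 * d.sy.D j W z) := by
    have h1 : d.sy.Λ W z = _ := Ly_eq (s := d.s₂) (f := W) F2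
    rw [h1]
    refine Finset.sum_congr rfl fun i _ => Finset.sum_congr rfl fun j _ => ?_
    rw [← DDy (s := d.s₂), ← D_y d j W z]
    rfl
  have NQ : δ * (N + E * s) ≤ Q := by
    have h1 : δ * (E * s) ≤ E := by
      calc δ * (E * s) = E * (δ * s) := by ring
        _ ≤ E := mul_le_of_le_one_right hE k6
    have h2 : δ * N ≤ N * (δ + μ₂) := by linarith
    linarith
  have NQ' : δ * (N + E * s) ≤ K * (δ * s) + N * δ + E * s := by
    have h1 : δ * (E * s) ≤ E * s := mul_le_of_le_one_left k2 hδ1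
    linarith
  have CNQ := mul_le_mul_of_nonneg_left NQ hC
  have CNQ' := mul_le_mul_of_nonneg_left NQ' hC
  have n20 : (n : ℝ) ^ 2 * (20 * (C * Q)) ≤ 20 * (1 + n) ^ 2 * C * Q := by
    have := mul_le_mul_of_nonneg_right cn (by positivity : 0 ≤ 20 * (C * Q))
    linarith
  refine ⟨fun i => (dx i).trans ?_, fun i => (dy i).trans ?_, fun i => ?_, fun i j =>
    (xx i j).trans ?_, fun i j => (yy i j).trans ?_, fun i j => ?_, fun i j => ?_, fun i j => ?_,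
    fun i j => ?_, fun i j => ?_, fun i j => ?_, fun i j => ?_, fun i j => (df i j).trans ?_, ?_,
    ?_, ?_⟩
  · have : 0 ≤ C * (N + E * s) := by positivity
    linarith [up X0]
  · have : 0 ≤ C * (N + E * s) := by positivity
    linarith [up X0]
  · have e : d.sx.D i W z + d.sy.D i W z = fderiv ℝ W z (ep (Sum.inl i)) := by
      rw [D_x, D_y, ex_ep, ey_ep]
      simp only [map_add, map_smul, smul_eq_mul]
      ring
    rw [e]
    have Y0 : 0 ≤ N + E * s ^ 2 := by positivity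
    have := h.p i
    have : 0 ≤ C * (N + E * s ^ 2) := by positivity
    linarith [up Y0]
  · linarith [up Q0]
  · linarith [up Q0]
  · rw [(DD4 d h.sm i j).2.2.1]
    have a1 := abs_le.1 (g1 j i)
    have a2 := abs_le.1 (g2 j i)
    have a3 := abs_le.1 (g3 j i)
    have a4 := abs_le.1 (g4 j i)
    rw [abs_le]
    constructor <;> linarith [a1.1, a1.2, a2.1, a2.2, a3.1, a3.2, a4.1, a4.2, up Q0]
  · rw [(DD4 d h.sm i j).2.1]
    have a1 := abs_le.1 (g1 j i)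
    have a2 := abs_le.1 (g2 j i)
    have a3 := abs_le.1 (g3 j i)
    have a4 := abs_le.1 (g4 j i)
    rw [abs_le]
    constructor <;> linarith [a1.1, a1.2, a2.1, a2.2, a3.1, a3.2, a4.1, a4.2, up Q0]
  · rw [(DD4 d h.sm i j).1, (DD4 d h.sm i j).2.1]
    have a1 := abs_le.1 (g1 j i)
    have a3 := abs_le.1 (g3 j i)
    rw [abs_le]
    constructor <;> linarith [a1.1, a1.2, a3.1, a3.2, up Qs0]
  · rw [(DD4 d h.sm i j).2.2.1, (DD4 d h.sm i j).2.2.2]
    have a1 := abs_le.1 (g1 j i)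
    have a3 := abs_le.1 (g3 j i)
    rw [abs_le]
    constructor <;> linarith [a1.1, a1.2, a3.1, a3.2, up Qs0]
  · rw [(DD4 d h.sm i j).1, (DD4 d h.sm i j).2.2.1]
    have a1 := abs_le.1 (g1 j i)
    have a2 := abs_le.1 (g2 j i)
    rw [abs_le]
    constructor <;> linarith [a1.1, a1.2, a2.1, a2.2, up Qs0]
  · rw [(DD4 d h.sm i j).2.1, (DD4 d h.sm i j).2.2.2]
    have a1 := abs_le.1 (g1 j i)
    have a2 := abs_le.1 (g2 j i)
    rw [abs_le]
    constructor <;> linarith [a1.1, a1.2, a2.1, a2.2, up Qs0]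
  · rw [(DD4 d h.sm i j).1, (DD4 d h.sm i j).2.1, (DD4 d h.sm i j).2.2.1, (DD4 d h.sm i j).2.2.2]
    have a1 := abs_le.1 (h.pp j i)
    have Z0 : 0 ≤ K + N * (δ + μ₂) + E * s ^ 2 := by positivity
    have := mul_nonneg hC Z0
    rw [abs_le]
    constructor <;> linarith [a1.1, a1.2, up Z0]
  · linarith [up DF0, mul_nonneg hC DF0]
  · rw [eLx]
    refine (sum_le2 (c := 20 * (C * Q)) fun i j => ?_).trans n20
    refine (abs_add_le _ _).trans ?_
    rw [abs_mul, abs_mul]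
    have a1 := mul_le_mul (T1 i j) (xx i j) (abs_nonneg _) (by norm_num : (0 : ℝ) ≤ 2)
    have a2 := mul_le_mul (D1 i i j) (dx j) (abs_nonneg _) hδ
    linarith
  · rw [eLy]
    refine (sum_le2 (c := 20 * (C * Q)) fun i j => ?_).trans n20
    refine (abs_add_le _ _).trans ?_
    rw [abs_mul, abs_mul]
    have a1 := mul_le_mul (T2 i j) (yy i j) (abs_nonneg _) (by norm_num : (0 : ℝ) ≤ 2)
    have a2 := mul_le_mul (D2 i i j) (dy j) (abs_nonneg _) hδ
    linarith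
  · rw [eLx, eLy]
    simp only [← Finset.sum_sub_distrib]
    set P := K * (δ * s) + N * δ + E * s with hP
    have hκ0 : 0 ≤ κ := (hq.κs_nn d z).trans hκ
    have n21 : (n : ℝ) ^ 2 * (20 * (C * (P + κ * Q))) ≤ 20 * (1 + n) ^ 2 * C * (P + κ * Q) := by
      have := mul_le_mul_of_nonneg_right cn (by positivity : 0 ≤ 20 * (C * (P + κ * Q)))
      linarith
    refine (sum_le2 (c := 20 * (C * (P + κ * Q))) fun i j => ?_).trans n21
    have e : d.s₁ z.1 i j * d.sx.D i (d.sx.D j W) z + pd i (fun y => d.s₁ y i j) z.1 *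
        d.sx.D j W z - (d.s₂ z.2 i j * d.sy.D i (d.sy.D j W) z + pd i (fun y => d.s₂ y i j) z.2 *
        d.sy.D j W z) = d.s₁ z.1 i j * (d.sx.D i (d.sx.D j W) z - d.sy.D i (d.sy.D j W) z) +
        (d.s₁ z.1 i j - d.s₂ z.2 i j) * d.sy.D i (d.sy.D j W) z +
        (pd i (fun y => d.s₁ y i j) z.1 * d.sx.D j W z -
        pd i (fun y => d.s₂ y i j) z.2 * d.sy.D j W z) := by ring
    rw [e]
    have b1 : |d.s₁ z.1 i j * (d.sx.D i (d.sx.D j W) z - d.sy.D i (d.sy.D j W) z)| ≤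
        2 * (2 * (C * P)) := by
      rw [abs_mul]
      exact mul_le_mul (T1 i j) (df i j) (abs_nonneg _) (by norm_num)
    have b2 : |(d.s₁ z.1 i j - d.s₂ z.2 i j) * d.sy.D i (d.sy.D j W) z| ≤ κ * (3 * (C * Q)) := by
      rw [abs_mul]
      exact mul_le_mul (kp i j) (yy i j) (abs_nonneg _) hκ0
    have b3 : |pd i (fun y => d.s₁ y i j) z.1 * d.sx.D j W z| ≤ δ * (2 * (C * (N + E * s))) := by
      rw [abs_mul]
      exact mul_le_mul (D1 i i j) (dx j) (abs_nonneg _) hδ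
    have b4 : |pd i (fun y => d.s₂ y i j) z.2 * d.sy.D j W z| ≤ δ * (2 * (C * (N + E * s))) := by
      rw [abs_mul]
      exact mul_le_mul (D2 i i j) (dy j) (abs_nonneg _) hδ
    refine (abs_add_le _ _).trans ((add_le_add ((abs_add_le _ _).trans (add_le_add b1 b2))
      ((abs_sub _ _).trans (add_le_add b3 b4))).trans ?_)
    have x1 : 0 ≤ C * (κ * Q) := by positivity
    have x2 : 0 ≤ C * P := by positivity
    linarith

end slots

end Vale.Agent.P088.R2.H932.EP
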