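import Vale.Agent.P088.R2.H932.EP.Wp
import Vale.Agent.P088.R2.H932.EP.Ws

/-!
# P088: the weight of the package near the diagonal: the bounds, literally
-/

open Set Filter
open scoped Topology ContDiff Matrix

noncomputable section

namespace Vale.Agent.P088.R2.H932.EP

open Vale.Agent.P088.LR Vale.Agent.P088.HY Vale.Agent.P088.R2.H961.GW Vale.Agent.P088.R2.H464.Cu
open Vale.Agent.P088.R2.H31.EP
open Vale.Agent.P088.R2.H475 (levG)
open Vale.Agent.P088.R2.H867.EP (Cut Zo path sd Near on)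

variable {n : ℕ} {q : Cst} {d : Pk n} {z : VV n}

/-- The conditions on the constants. -/
structure WrC (n : ℕ) (q : Cst) : Prop extends NrC n q where
  r1 : 2 * Real.exp 1 ≤ q.r₁
  εσ : q.ε ≤ q.σ
  e0 : 0 < q.e₁

theorem evWr (n : ℕ) : EvC (WrC n) := by
  have h1 : EvC fun q => 0 < q.c' → 2 * Real.exp 1 ≤ q.r₁ :=
    EvC.at_M₀ (fun q t => 0 < q.c' → 2 * Real.exp 1 ≤ q.c' * t / 2) fun q => by
      by_cases h : 0 < q.c'
      · filter_upwards [eventually_ge_atTop (4 * Real.exp 1 / q.c')] with t ht _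
        rw [div_le_iff₀ h] at ht
        linarith
      · exact Eventually.of_forall fun _ h' => absurd h' h
  have h2 : EvC fun q => 0 < q.σ → q.ε ≤ q.σ :=
    EvC.at_ε (fun q t => 0 < q.σ → t ≤ q.σ) fun q => by
      by_cases h : 0 < q.σ
      · exact (sml_le h).mono fun _ h1 _ => h1
      · exact Eventually.of_forall fun _ h' => absurd h' h
  refine (((evNr n).and EvC.pos).and (h1.and h2)).mono ?_
  rintro q ⟨⟨a, b⟩, c1, c2⟩
  exact { a with
    r1 := c1 b.2.1.2.2.1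
    εσ := c2 b.2.1.2.1
    e0 := b.1.2.1 }

/-- A point near the diagonal, below the top. -/
structure Nz (q : Cst) (d : Pk n) (z : VV n) : Prop where
  r : d.r2 z < 1
  u : d.u0 z ≤ 2 * d.l₀ q + 5 * q.R
  l1 : d.l z.1 < d.l₀ q + 26 / 10 * q.R
  l2 : d.l z.2 < d.l₀ q + 26 / 10 * q.R

namespace NrC

/-- The supports of the zones near the diagonal. -/
theorem nz (hq : NrC n q) (h : PkOk q d) {k : Zo} (hk : Near k) (hz : z ∈ tsupport (d.ch q k)) :
    Nz q d z := by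
  have i := hq.cd.inf
  have hn := H404.INF.near_supp i h (fin hk) hz
  have hR := hq.R0
  have a1 := (H404.INF.gl_le i h).1 hn.g1
  have a2 := (H404.INF.gl_le i h).1 hn.g2
  have h1 := hq.ρ_le h hk hz
  have h2 : 0 < q.c₀ := (hq.sm d h).cp.c₀
  have h3 := hq.c1
  have h4 : d.r2 z = 2 * rq (gi d.s₁) z := rfl
  refine ⟨?_, ?_, by linarith, by linarith⟩
  · rw [h4]; nlinarith
  · have h5 : d.u0 z ≤ 2 * d.l₀ q + 93 / 20 * q.R := hn.up
    linarith

end NrC

namespace WrC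

theorem W_eq (hq : WrC n q) (h : PkOk q d) (hz : Nz q d z) :
    d.W q =ᶠ[𝓝 z] Wn d.Φ (prS q.e₁) (d.u q) (rq (gi d.s₁)) := by
  have hR : 0 < q.R := by linarith [hq.R0]
  have hs := hq.sm d h
  have h1 : ∀ᶠ w in 𝓝 z, 2 * rq (gi d.s₁) w < 1 :=
    (continuous_const.mul hs.rq.continuous).continuousAt.eventually (gt_mem_nhds hz.r)
  filter_upwards [H404.INF.W_near hR h hz.l1 hz.l2, h1] with w hw hr
  rw [hw.2.2.2.2]
  have e1 := Real.exp_pos (-1)
  have e2 : Real.exp 1 * Real.exp (-1) = 1 := by rw [← Real.exp_add]; simp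
  have h2 : 1 ≤ (d.F q).rc := by
    show 1 ≤ q.r₁ * Real.exp (-1) / 2
    have := mul_le_mul_of_nonneg_right hq.r1 e1.le
    linarith
  have h3 : H31.EP.r2 (gi d.s₁) w ≤ (d.F q).rc ^ 2 := by
    have : H31.EP.r2 (gi d.s₁) w < 1 := hr
    nlinarith
  unfold WW Wn
  rw [st_in h3]
  simp only [Pk.F, one_mul]
  rfl

theorem prS_pf {e₁ ρ : ℝ} (he : 0 < e₁) (h0 : 0 ≤ ρ) (h1 : 2 * ρ < 1) : Pf (prS e₁) 16 ρ := by
  have h := H606.EP.pn_ok he (by linarith : 0 ≤ 2 * ρ) h1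
  have d1 : deriv (prS e₁) = H606.EP.prS₁ e₁ := funext fun s => (H606.EP.prS_d1 he s).deriv
  have d2 : deriv (deriv (prS e₁)) = H606.EP.prS₂ e₁ := by
    rw [d1]; exact funext fun s => (H606.EP.prS_d2 he s).deriv
  refine ⟨?_, ?_, ?_⟩
  · rw [abs_of_nonneg (by linarith [h.lo])]
    linarith [h.hi]
  · rw [d1, abs_of_nonneg (by linarith [h.l1])]
    linarith [h.b1]
  · rw [d2, abs_of_nonneg h.l2]
    linarith [h.h2]

/-- The constant. -/
def cWn (n : ℕ) : ℝ := cW (cU n cD) 16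

theorem cU_nn {M : ℝ} (hM : 0 ≤ M) : 0 ≤ cU n M := by unfold cU; positivity

theorem cWn_nn : 0 ≤ cWn n := by
  have h := cD_two
  have h1 := cU_nn (n := n) (M := cD) (by linarith)
  unfold cWn cW; positivity

/-- `|μc''|` at the midpoint. -/
def m2 (q : Cst) (d : Pk n) (z : VV n) : ℝ := |deriv (deriv (d.μc q)) (d.l (mid z))|

/-- **The weight in the directions `D_p`, `D_q`.** -/
theorem wd (hq : WrC n q) (h : PkOk q d) (hz : Nz q d z) :
    Wd (cWn n) (q.σ / q.R) (m2 q d z) (√(rq (gi d.s₁) z)) (d.E q z) (d.N q z) (d.Kf q z)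
      (d.W q) z := by
  have hs := hq.sm d h
  have i := hq.cd.inf
  have hR := hq.R0
  have hR0 : 0 < q.R := by linarith
  have hc := hq.cd.cd h hz.r hz.u
  have hl : d.l = levG n q.σ q.R d.kap d.Gs := h.lev.lit
  have hlb := Lb_Ow' (n := n) (kap := d.kap) (Gs := d.Gs) i.σ0 i.σ1 i.R1
  rw [← hl] at hlb
  have h0 := hs.rq0 z
  have hD := cD_two
  have hcm : cMu ≤ cD := by unfold cD; linarith
  have j := j1_mu i.R1 h (d.l (mid z))
  have jm : J1 (d.μc q) cD (m2 q d z) (d.l (mid z)) := J1.of j.sm (j.e1.trans hcm) le_rfl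
  have hn : (0 : ℝ) ≤ n := Nat.cast_nonneg n
  have e1 : (n : ℝ) * (1 / (2 * (n + 1))) ≤ 1 / 2 := by
    rw [mul_one_div, div_le_div_iff₀ (by positivity) (by norm_num)]; linarith
  have e2 : 1 / (2 * ((n : ℝ) + 1)) ≤ 1 := by
    rw [div_le_one (by positivity)]; linarith
  have g := nr_gi h.rg (by norm_num) hq.cd.ε0.le i.R1 hq.cd.ε1 (Ow n q.σ q.R)
  have hδ : 0 ≤ q.σ / q.R := div_nonneg i.σ0.le hR0.le
  have hδ1 : q.σ / q.R ≤ 1 := by
    rw [div_le_one hR0]
    linarith [i.σ1]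
  have ur := ur_of (Ow_open _ _) (Ow_conv _ _) hlb g e1 e2 hδ hc.hx hc.hy hc.hm
    (by linarith : (0 : ℝ) ≤ cD) jm h0
  have hA := cU_nn (n := n) (M := cD) (by linarith)
  have hu : u1 (d.μc q) d.l =ᶠ[𝓝 z] d.u q := hc.uu
  -- transfer from `u1` to `u`
  have ur' : Ur (cU n cD) (q.σ / q.R) (m2 q d z) (√(rq (gi d.s₁) z)) (d.u q) (rq (gi d.s₁)) z :=
    { us := ur.us.congr_of_eventuallyEq hu.symm
      rs := ur.rs
      up := fun i => by rw [← hu.fderiv_eq]; exact ur.up i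
      uq := fun i => by rw [← hu.fderiv_eq]; exact ur.uq i
      upp := fun i j => by rw [← fd2_congr hu]; exact ur.upp i j
      upq := fun i j => by rw [← fd2_congr hu]; exact ur.upq i j
      uqp := fun i j => by rw [← fd2_congr hu]; exact ur.uqp i j
      uqq := fun i j => by rw [← fd2_congr hu]; exact ur.uqq i j
      rp := ur.rp
      rq := ur.rq
      rpp := ur.rpp
      rpq := ur.rpq
      rqp := ur.rqp
      rqq := ur.rqq }
  have hr : 2 * rq (gi d.s₁) z < 1 := hz.r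
  have hm2 : m2 q d z ≤ 1 + cU n cD := by
    have h1 : m2 q d z ≤ cMu := j.e2
    have h2 : cD ≤ cU n cD := by
      have c0 : (1 : ℝ) ≤ (1 + n) ^ 4 := one_le_pow₀ (by linarith)
      have := mul_le_mul_of_nonneg_right c0 (by linarith : 0 ≤ 900 * (1 + cD))
      unfold cU
      linarith
    linarith
  exact (wd_of ur' (Real.sq_sqrt h0) (Real.sqrt_nonneg _) (Real.sqrt_le_one.2 (by linarith)) hA
    (by norm_num) hδ hδ1 (abs_nonneg _) hm2 (prS_pf hq.e0 h0 hr) h.Φs (H606.EP.prS_sm hq.e0)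
    (h.N_pos hq.M1 _).le (h.top.k0 _).le).congr (hq.W_eq h hz)

/-- **The weight in the slots**: `s = √ρ`, `m = 2 E s²`. -/
theorem ws (hq : WrC n q) (h : PkOk q d) (hz : Nz q d z) :
    Ws d (20 * (1 + n) ^ 2 * cWn n) (q.σ / q.R) (m2 q d z) (√(rq (gi d.s₁) z)) (CdC.κs n q d z)
      (d.E q z) (d.N q z) (d.Kf q z) (d.W q) z := by
  have hs := hq.sm d h
  have i := hq.cd.inf
  have hR := hq.R0
  have hR0 : 0 < q.R := by linarith
  have hr : 2 * rq (gi d.s₁) z < 1 := hz.r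
  have hδ1 : q.σ / q.R ≤ 1 := by
    rw [div_le_one hR0]
    linarith [i.σ1]
  exact (hq.wd h hz).ws cWn_nn (div_nonneg i.σ0.le hR0.le) hδ1 (abs_nonneg _) (Real.sqrt_nonneg _)
    (Real.sqrt_le_one.2 (by linarith)) (Real.exp_pos _).le (h.N_pos hq.M1 _).le (h.top.k0 _).le
    hq.cd h (div_le_div_of_nonneg_right hq.εσ hR0.le) le_rfl

end WrC

end Vale.Agent.P088.R2.H932.EP
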