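import Vale.Agent.P088.R2.H932.EP.Hb
import Vale.Agent.P088.R2.H867.Z.Ho6

/-!
# P088, stage 3, zone B1: the cut-off conditions on the package
-/

open Set Filter
open scoped Topology ContDiff Matrix

noncomputable section

namespace Vale.Agent.P088.R2.H932.EP

open Vale.Agent.P088.LR Vale.Agent.P088.HY Vale.Agent.P088.R2.H961.GW Vale.Agent.P088.R2.H464.Cu
open Vale.Agent.P088.R2.H31.EP
open Vale.Agent.P088.R2.H867.Z (Mt Sg mB gB GB BC HBz HO' evBC)

variable {n : ℕ} {q : Cst} {d : Pk n} {z : VV n}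

/-- The core region is near the diagonal. -/
theorem HbC.nz_of (hb : HbC n q) (hq : BC n q) (h : PkOk q d) (hz : GB d q z) : Nz q d z := by
  have i := hb.cd.inf
  have hR := hb.R0
  have h1 : H404.INF.tinf q.κ₁ q.σ q.R (d.l₀ q) d.l z < 1 := by
    have := hz.1
    rwa [H404.INF.cv_inf] at this
  have hn := H404.INF.near_alive (H404.INF.lvG i h) i.κ0 i.κ1 h1
  have a1 := (H404.INF.gl_le i h).1 hn.g1
  have a2 := (H404.INF.gl_le i h).1 hn.g2
  have h5 : d.u0 z ≤ 2 * d.l₀ q + 93 / 20 * q.R := hn.up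
  exact ⟨by linarith [(hq.r2_le h hz).2], by linarith, by linarith, by linarith⟩

/-- **The bounds of the metrics and of the weight in the core region.** -/
theorem HbC.hbz (hb : HbC n q) (hq : BC n q) (h : PkOk q d) (hz : GB d q z) :
    HBz d q (cWB n) z := by
  have hn := hb.nz_of hq h hz
  have w := hb.Wb h hn
  exact
    { mt := hb.mt h hn
      el₁ := hb.cd.elx h z
      el₂ := hb.cd.ely h z
      F₁ := w.1
      F₂ := w.2.1
      Wp := w.2.2 }

/-- **The cut-off conditions of zone B1**, at every point. -/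
theorem ho_pk (n : ℕ) : EvC fun q => HbC n q ∧ BC n q ∧ ∀ d : Pk n, PkOk q d → ∀ K,
    q.KB n (cWB n) ≤ K → ∀ z, HO' d.s₁ d.s₂ (d.W q) (d.ch q .zB) (d.psiB q) (d.omB q) (d.wB q)
      (d.gB q) (d.eB q) (d.hB q) (d.fB q) (d.ZB q K) (d.ZB' q K) z := by
  refine ((evHb n).and (evBC n)).mono ?_
  rintro q ⟨a, b⟩
  exact ⟨a, b, fun d h K hK z => b.ho' h (cWB_nn n) hK z fun hz => a.hbz b h hz⟩

end Vale.Agent.P088.R2.H932.EP
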