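import Vale.Agent.P088.R2.H932.EP.Wq
import Vale.Agent.P088.R2.H867.Z.HoL

/-!
# P088, stage 3, zone B1: the weight and the metrics for the cut-off conditions, literally
-/

open Set Filter
open scoped Topology ContDiff Matrix

noncomputable section

namespace Vale.Agent.P088.R2.H932.EP

open Vale.Agent.P088.LR Vale.Agent.P088.HY Vale.Agent.P088.R2.H961.GW Vale.Agent.P088.R2.H464.Cu
open Vale.Agent.P088.R2.H31.EP
open Vale.Agent.P088.R2.H475 (levG)
open Vale.Agent.P088.R2.H867.EP (Cut Zo path sd Near on)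
open Vale.Agent.P088.R2.H867.Z (Mt Sg mB gB)
open Vale.Agent.P088.R2.H86.Z (El)
open Vale.Agent.P088.R2.H222 (dl)

variable {n : ℕ} {q : Cst} {d : Pk n} {z : VV n}

/-! ## The metrics -/

theorem CdC.nε (hq : CdC n q) : (n : ℝ) * q.ε ≤ 1 / 2 := by
  have h := hq.ε1
  have h0 := hq.ε0
  have hn : (0 : ℝ) ≤ n := Nat.cast_nonneg n
  have h1 : (n : ℝ) ≤ cE n := by
    have hc : 2 ≤ H222.cI n 2 := H222.two_le_cI n 2
    have : 0 ≤ n * (2 ^ 2 * H222.cI n 2) * (2 * (n + 1)) * 2 := by positivity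
    unfold cE; linarith
  exact (mul_le_mul_of_nonneg_right h1 h0.le).trans h

theorem PkOk_s₂_close (h : PkOk q d) (x : V n) (i j : Fin n) : |d.s₂ x i j - dl i j| ≤ q.ε := by
  have := h.rg.cl₂ i j 0 (by norm_num) x
  rwa [norm_iteratedFDeriv_zero, pow_zero, mul_one, Real.norm_eq_abs] at this

theorem el_of {σ : Sl (VV n) (Fin n)} {ε : ℝ} (hs : ∀ i j, |σ.s i j z - dl i j| ≤ ε)
    (hn : n * ε ≤ 1 / 2) : El σ z := by
  have key : ∀ A : Fin n → ℝ, |∑ i, ∑ j, σ.s i j z * A i * A j - ∑ i, A i ^ 2| ≤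
      1 / 2 * ∑ i, A i ^ 2 := fun A => by
    have h1 := bf_close (G := Matrix.of fun i j => σ.s i j z) hs A
    have h2 : 0 ≤ ∑ i, A i ^ 2 := Finset.sum_nonneg fun i _ => sq_nonneg _
    have h3 : bf (Matrix.of fun i j => σ.s i j z) A A = ∑ i, ∑ j, σ.s i j z * A i * A j := rfl
    rw [h3] at h1
    exact h1.trans (mul_le_mul_of_nonneg_right hn h2)
  constructor
  · intro A
    have h2 : 0 ≤ ∑ i, A i ^ 2 := Finset.sum_nonneg fun i _ => sq_nonneg _
    linarith [(abs_le.1 (key A)).2]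
  · intro A
    have h2 : 0 ≤ ∑ i, A i ^ 2 := Finset.sum_nonneg fun i _ => sq_nonneg _
    linarith [(abs_le.1 (key A)).1]

theorem CdC.elx (hq : CdC n q) (h : PkOk q d) (z : VV n) : El (sx d.s₁) z :=
  el_of (ε := q.ε) (fun i j => h.s₁_close z.1 i j) hq.nε

theorem CdC.ely (hq : CdC n q) (h : PkOk q d) (z : VV n) : El (sy d.s₂) z :=
  el_of (ε := q.ε) (fun i j => PkOk_s₂_close h z.2 i j) hq.nε

/-- The conditions on the constants. -/
structure HbC (n : ℕ) (q : Cst) : Prop extends WrC n q where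
  εn : 100 * ((n : ℝ) + 1) * q.ε ≤ 1

theorem evHb (n : ℕ) : EvC (HbC n) := by
  have h1 : EvC fun q => q.ε ≤ 1 / (100 * ((n : ℝ) + 1)) :=
    EvC.at_ε (fun _ t => t ≤ 1 / (100 * ((n : ℝ) + 1))) fun _ => sml_le (by positivity)
  refine ((evWr n).and h1).mono ?_
  rintro q ⟨a, b⟩
  rw [le_div_iff₀ (by positivity)] at b
  exact { a with εn := by linarith }

namespace HbC

theorem gB_nn (hq : HbC n q) (h : PkOk q d) (z : VV n) :
    0 ≤ mB (d.E q) (rq (gi d.s₁)) z ∧ 0 ≤ gB (d.E q) (rq (gi d.s₁)) z := by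
  have h0 := (hq.rb d h z).1
  have hE : 0 < d.E q z := Real.exp_pos _
  have h1 : 0 ≤ mB (d.E q) (rq (gi d.s₁)) z := by unfold mB; positivity
  exact ⟨h1, by unfold gB; positivity⟩

theorem S_sq (hq : HbC n q) (h : PkOk q d) (z : VV n) :
    Sg (d.E q) (rq (gi d.s₁)) z ^ 2 * (1 + mB (d.E q) (rq (gi d.s₁)) z) = d.E q z := by
  obtain ⟨h1, h2⟩ := hq.gB_nn h z
  unfold Sg
  rw [Real.sq_sqrt h2]
  unfold gB
  field_simp

/-- `S |x - y| ≤ 2`. -/
theorem S_dif (hq : HbC n q) (h : PkOk q d) (z : VV n) :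
    ‖dif z‖ * Sg (d.E q) (rq (gi d.s₁)) z ≤ 2 := by
  obtain ⟨h0, h1, -⟩ := hq.rb d h z
  obtain ⟨m0, g0⟩ := hq.gB_nn h z
  have hS := hq.S_sq h z
  have S0 : 0 ≤ Sg (d.E q) (rq (gi d.s₁)) z := Real.sqrt_nonneg _
  have hE : 0 < d.E q z := Real.exp_pos _
  have hn : ‖dif z‖ ^ 2 ≤ qq z := by
    have h3 : ∀ i, |dif z i| ≤ √(qq z) := fun i => by
      refine Real.abs_le_sqrt ?_
      exact Finset.single_le_sum (f := fun i => dif z i ^ 2) (fun i _ => sq_nonneg _)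
        (Finset.mem_univ i)
    have h4 : ‖dif z‖ ≤ √(qq z) := (pi_norm_le_iff_of_nonneg (Real.sqrt_nonneg _)).2 fun i => by
      rw [Real.norm_eq_abs]; exact h3 i
    calc ‖dif z‖ ^ 2 ≤ √(qq z) ^ 2 := pow_le_pow_left₀ (norm_nonneg _) h4 2
      _ = qq z := Real.sq_sqrt (qq_nonneg z)
  have hm : mB (d.E q) (rq (gi d.s₁)) z = d.E q z * (2 * rq (gi d.s₁) z) := rfl
  set S := Sg (d.E q) (rq (gi d.s₁)) z
  set m := mB (d.E q) (rq (gi d.s₁)) z
  have h5 : (‖dif z‖ * S) ^ 2 ≤ 2 ^ 2 := by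
    have h6 : (‖dif z‖ * S) ^ 2 * (1 + m) ≤ 2 ^ 2 * (1 + m) := by
      calc (‖dif z‖ * S) ^ 2 * (1 + m) = ‖dif z‖ ^ 2 * (S ^ 2 * (1 + m)) := by ring
        _ = ‖dif z‖ ^ 2 * d.E q z := by rw [hS]
        _ ≤ qq z * d.E q z := mul_le_mul_of_nonneg_right hn hE.le
        _ ≤ (2 * (2 * rq (gi d.s₁) z)) * d.E q z :=
          mul_le_mul_of_nonneg_right (by linarith) hE.le
        _ ≤ 2 ^ 2 * (1 + m) := by rw [hm]; nlinarith [mul_nonneg hE.le h0]
    exact le_of_mul_le_mul_right h6 (by linarith)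
  exact (abs_le_of_sq_le_sq' h5 (by norm_num)).2

/-- `S` against the level. -/
theorem S_lev (hq : HbC n q) (h : PkOk q d) (hz : Nz q d z) :
    min 1 (Real.exp (-(100 * d.l z.2))) * Sg (d.E q) (rq (gi d.s₁)) z ≤ 4 + 2 * n := by
  have i := hq.cd.inf
  have hR0 : 0 < q.R := by linarith [hq.R0]
  have hn : (0 : ℝ) ≤ n := Nat.cast_nonneg n
  obtain ⟨m0, g0⟩ := hq.gB_nn h z
  have hS := hq.S_sq h z
  have S0 : 0 ≤ Sg (d.E q) (rq (gi d.s₁)) z := Real.sqrt_nonneg _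
  have hE : 0 < d.E q z := Real.exp_pos _
  have hd := hq.S_dif h z
  set S := Sg (d.E q) (rq (gi d.s₁)) z
  have m1 : min 1 (Real.exp (-(100 * d.l z.2))) ≤ 1 := min_le_left _ _
  have mn : 0 ≤ min 1 (Real.exp (-(100 * d.l z.2))) := le_min zero_le_one (Real.exp_pos _).le
  rcases le_or_gt (n * ‖dif z‖) 1 with c | c
  · -- `S ≤ e^(l(y) + 9/8)`
    have hc := hq.cd.cd h hz.r hz.u
    have hl : d.l = levG n q.σ q.R d.kap d.Gs := h.lev.lit
    have hlb := Lb_Ow' (n := n) (kap := d.kap) (Gs := d.Gs) i.σ0 i.σ1 i.R1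
    rw [← hl] at hlb
    have h1 : |d.l z.1 - d.l z.2| ≤ n * 2 * ‖z.1 - z.2‖ :=
      mv_le (Ow_open _ _) (Ow_conv _ _) hlb.sm (by norm_num) (fun x hx k => hlb.d1 x hx k)
        hc.hx hc.hy
    have h2 : ‖z.1 - z.2‖ = ‖dif z‖ := rfl
    rw [h2] at h1
    have h3 := (abs_le.1 h1).2
    have h4 := NrC.u_le0 h z
    have h5 : d.u0 z = d.l z.1 + d.l z.2 := rfl
    have h6 : d.u q z ≤ 2 * (d.l z.2 + 9 / 8) := by
      rw [h5] at h4
      linarith
    have h7 : S ≤ Real.exp (d.l z.2 + 9 / 8) := by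
      have h8 : S ^ 2 ≤ Real.exp (d.l z.2 + 9 / 8) ^ 2 := by
        have h9 : S ^ 2 ≤ d.E q z := by
          rw [← hS]
          exact le_mul_of_one_le_right (sq_nonneg _) (by linarith)
        have h10 : d.E q z ≤ Real.exp (d.l z.2 + 9 / 8) ^ 2 := by
          have : d.E q z = Real.exp (d.u q z) := rfl
          rw [this, ← Real.exp_nat_mul]
          exact Real.exp_le_exp.2 (by push_cast; linarith)
        linarith
      exact (abs_le_of_sq_le_sq' h8 (Real.exp_pos _).le).2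
    have e98 : Real.exp (9 / 8) ≤ 4 := by
      have h1 := Real.exp_one_lt_d9
      have h2 : Real.exp (1 / 8) ≤ 8 / 7 := by
        have := Real.exp_bound_div_one_sub_of_interval (x := 1 / 8) (by norm_num) (by norm_num)
        refine this.trans (by norm_num)
      have h3 : Real.exp (9 / 8) = Real.exp 1 * Real.exp (1 / 8) := by
        rw [← Real.exp_add]; norm_num
      rw [h3]
      nlinarith [Real.exp_pos 1, Real.exp_pos (1 / 8)]
    rcases le_or_gt (d.l z.2) 0 with hl0 | hl0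
    · have h8 : S ≤ 4 := h7.trans ((Real.exp_le_exp.2 (by linarith)).trans e98)
      have := mul_le_mul m1 h8 S0 zero_le_one
      linarith
    · have h8 := mul_le_mul (min_le_right 1 (Real.exp (-(100 * d.l z.2)))) h7 S0
        (Real.exp_pos _).le
      rw [← Real.exp_add] at h8
      have h9 : Real.exp (-(100 * d.l z.2) + (d.l z.2 + 9 / 8)) ≤ Real.exp (9 / 8) :=
        Real.exp_le_exp.2 (by linarith)
      linarith
  · -- `S ≤ 2 n`
    have hp : 0 < (n : ℝ) := by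
      by_contra hc
      have : (n : ℝ) = 0 := le_antisymm (not_lt.1 hc) hn
      rw [this] at c
      norm_num at c
    have h1 : S ≤ 2 * n := by
      have h2 : n * (‖dif z‖ * S) ≤ n * 2 := mul_le_mul_of_nonneg_left hd hn
      have h3 : 1 * S ≤ n * ‖dif z‖ * S := mul_le_mul_of_nonneg_right c.le S0
      linarith
    have := mul_le_mul m1 h1 S0 zero_le_one
    linarith

/-- **The metrics.** -/
theorem mt (hq : HbC n q) (h : PkOk q d) (hz : Nz q d z) :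
    Mt d.s₁ d.s₂ (Sg (d.E q) (rq (gi d.s₁)) z) z where
  d₁ i j := ((h.rg.sm₁ i j).differentiable (by simp)) z.1
  d₂ i j := ((h.rg.sm₂ i j).differentiable (by simp)) z.2
  b₁ i j := (hq.cd.tens h z.1 i j).1
  b₂ i j := (hq.cd.tens h z.2 i j).2
  p₁ k i j := by
    have hR := hq.R0
    have h1 : q.ε / q.R ≤ 1 := by
      rw [div_le_one (by linarith)]
      linarith [hq.cd.ε2]
    exact (CdC.tens_d h z.1 k i j).1.trans h1
  p₂ k i j := by
    have hR := hq.R0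
    have h1 : q.ε / q.R ≤ 1 := by
      rw [div_le_one (by linarith)]
      linarith [hq.cd.ε2]
    exact (CdC.tens_d h z.2 k i j).2.trans h1
  k i j := by
    have hR := hq.R0
    have hn : (0 : ℝ) ≤ n := Nat.cast_nonneg n
    have S0 : 0 ≤ Sg (d.E q) (rq (gi d.s₁)) z := Real.sqrt_nonneg _
    have hd := hq.S_dif h z
    have hl := hq.S_lev h hz
    have hε := hq.cd.ε0
    have hεn := hq.εn
    have k := mul_le_mul_of_nonneg_right (hq.cd.kap h z i j) S0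
    refine k.trans ?_
    unfold CdC.κs
    set S := Sg (d.E q) (rq (gi d.s₁)) z
    have e : (n * (q.ε / q.R) * ‖dif z‖ + q.ε * min 1 (Real.exp (-(100 * d.l z.2)))) * S =
        n * (q.ε / q.R) * (‖dif z‖ * S) + q.ε * (min 1 (Real.exp (-(100 * d.l z.2))) * S) := by
      ring
    rw [e]
    have h1 : q.ε / q.R ≤ q.ε := div_le_self hε.le (by linarith)
    have h2 : n * (q.ε / q.R) * (‖dif z‖ * S) ≤ n * q.ε * 2 :=
      mul_le_mul (mul_le_mul_of_nonneg_left h1 hn) hd (by positivity) (by positivity)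
    have h3 := mul_le_mul_of_nonneg_left hl hε.le
    linarith

/-! ## The weight -/

/-- The number of the bounds of the weight. -/
def _root_.Vale.Agent.P088.R2.H932.EP.cWB (n : ℕ) : ℝ :=
  4 * (n + 1) * (1 + 20 * (1 + n) ^ 2 * WrC.cWn n) ^ 2

theorem _root_.Vale.Agent.P088.R2.H932.EP.cWB_nn (n : ℕ) : 0 ≤ cWB n := by
  unfold cWB; positivity

theorem F_le {σ : Sl (VV n) (Fin n)} {W : VV n → ℝ} {C N E s : ℝ} (el : El σ z)
    (hD : ∀ i, |σ.D i W z| ≤ C * (N + E * s)) :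
    σ.F W z ≤ 4 * (n + 1) * C ^ 2 * (N ^ 2 + E * (E * (2 * s ^ 2))) := by
  have hn : (0 : ℝ) ≤ n := Nat.cast_nonneg n
  have h1 : σ.F W z ≤ 2 * ∑ i, σ.D i W z ^ 2 := el.up fun i => σ.D i W z
  have h2 : ∑ i, σ.D i W z ^ 2 ≤ n * (C * (N + E * s)) ^ 2 := H867.Z.sum_sq hD
  have h3 : (C * (N + E * s)) ^ 2 ≤ C ^ 2 * (2 * (N ^ 2 + E ^ 2 * s ^ 2)) := by
    rw [mul_pow]
    refine mul_le_mul_of_nonneg_left ?_ (sq_nonneg _)
    nlinarith [sq_nonneg (N - E * s)]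
  have h4 := mul_le_mul_of_nonneg_left h3 hn
  have h5 : 0 ≤ C ^ 2 * (N ^ 2 + E ^ 2 * s ^ 2) := by positivity
  have h6 : 0 ≤ C ^ 2 * (E ^ 2 * s ^ 2) := by positivity
  have h7 : 0 ≤ (n : ℝ) * (C ^ 2 * (E ^ 2 * s ^ 2)) := by positivity
  nlinarith

/-- **The weight**, in the form of zone B1. -/
theorem Wb (hq : HbC n q) (h : PkOk q d) (hz : Nz q d z) :
    (sx d.s₁).F (d.W q) z ≤ cWB n * (d.N q z ^ 2 + d.E q z * mB (d.E q) (rq (gi d.s₁)) z) ∧
    (sy d.s₂).F (d.W q) z ≤ cWB n * (d.N q z ^ 2 + d.E q z * mB (d.E q) (rq (gi d.s₁)) z) ∧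
    ∀ i, |(sx d.s₁).D i (d.W q) z + (sy d.s₂).D i (d.W q) z| ≤
      cWB n * (d.N q z + mB (d.E q) (rq (gi d.s₁)) z) := by
  have w := hq.ws h hz
  have h0 := (hq.rb d h z).1
  have hE : 0 < d.E q z := Real.exp_pos _
  have hN : 0 < d.N q z := h.N_pos hq.M1 _
  have hn : (0 : ℝ) ≤ n := Nat.cast_nonneg n
  have hc := WrC.cWn_nn (n := n)
  have hs : √(rq (gi d.s₁) z) ^ 2 = rq (gi d.s₁) z := Real.sq_sqrt h0
  set C := 20 * (1 + (n : ℝ)) ^ 2 * WrC.cWn n with hC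
  have C0 : 0 ≤ C := by positivity
  have hm : mB (d.E q) (rq (gi d.s₁)) z = d.E q z * (2 * rq (gi d.s₁) z) := rfl
  have k1 : 4 * ((n : ℝ) + 1) * C ^ 2 ≤ cWB n := by
    have h1 : C ^ 2 ≤ (1 + C) ^ 2 := pow_le_pow_left₀ C0 (by linarith) 2
    exact mul_le_mul_of_nonneg_left h1 (by positivity)
  have k2 : C ≤ cWB n := by
    have h1 : (1 + C) ≤ (1 + C) ^ 2 := by nlinarith
    have h2 : 1 * (1 + C) ^ 2 ≤ 4 * ((n : ℝ) + 1) * (1 + C) ^ 2 :=
      mul_le_mul_of_nonneg_right (by linarith) (sq_nonneg _)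
    have h3 : cWB n = 4 * ((n : ℝ) + 1) * (1 + C) ^ 2 := rfl
    rw [h3]
    linarith
  have X0 : 0 ≤ d.N q z ^ 2 + d.E q z * (d.E q z * (2 * rq (gi d.s₁) z)) := by positivity
  refine ⟨?_, ?_, fun i => ?_⟩
  · have h1 := F_le (hq.cd.elx h z) w.Dx
    rw [hs] at h1
    rw [hm]
    exact h1.trans (mul_le_mul_of_nonneg_right k1 X0)
  · have h1 := F_le (hq.cd.ely h z) w.Dy
    rw [hs] at h1
    rw [hm]
    exact h1.trans (mul_le_mul_of_nonneg_right k1 X0)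
  · have h1 := w.Ds i
    rw [hs] at h1
    refine h1.trans ?_
    rw [hm]
    have h2 : d.N q z + d.E q z * rq (gi d.s₁) z ≤ d.N q z + d.E q z * (2 * rq (gi d.s₁) z) := by
      nlinarith [mul_nonneg hE.le h0]
    exact mul_le_mul k2 h2 (by positivity) (cWB_nn n)

end HbC

end Vale.Agent.P088.R2.H932.EP
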