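import Vale.Agent.P088.R2.H932.EP.Wf
import Vale.Agent.P088.R2.H932.EP.Pk4
import Vale.Agent.P088.R2.H606.EP.Prf

/-!
# P088: the weight of the package near the diagonal (also on the diagonal)

`|D_p W| ≤ C (N + E ρ)`, `|D_q W| ≤ C (N (σ/R) √ρ + E √ρ)`, and the second derivatives; the slots.
-/

open Set Filter
open scoped Topology ContDiff Matrix

noncomputable section

namespace Vale.Agent.P088.R2.H932.EP

open Vale.Agent.P088.LR Vale.Agent.P088.HY Vale.Agent.P088.R2.H961.GW Vale.Agent.P088.R2.H464.Cu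
open Vale.Agent.P088.R2.H31.EP
open Vale.Agent.P088.R2.H475 (levG)
open Vale.Agent.P088.R2.H644 (Ch.Gr)
open Vale.Agent.P088.R2.H867.EP (Cut Zo path sd Near on)

variable {n : ℕ} {O : Set (V n)} {L₁ L₂ ε δ₁ δ₂ δ M₁ μ₂ : ℝ} {l : V n → ℝ} {g : MF n} {z : VV n}
  {μ : ℝ → ℝ}

/-- The weights `1` for `D_p` and `0` for `D_q`. -/
def s0 : Fin n ⊕ Fin n → ℝ
  | Sum.inl _ => 1
  | Sum.inr _ => 0

theorem s0_nn (i : Fin n ⊕ Fin n) : 0 ≤ (s0 i : ℝ) := by
  rcases i with i | i <;> simp [s0]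

theorem fd_mid {f : V n → ℝ} {y : VV n} (hf : DifferentiableAt ℝ f (mid y)) (w : VV n) :
    fderiv ℝ (fun z => f (mid z)) y w = fderiv ℝ f (mid y) (mid w) := by
  have h : HasFDerivAt (fun z : VV n => f (midL n z)) ((fderiv ℝ f (midL n y)).comp (midL n)) y :=
    HasFDerivAt.comp y (hf.hasFDerivAt : HasFDerivAt f (fderiv ℝ f (midL n y)) (midL n y))
      (midL n).hasFDerivAt
  exact congrArg (fun L => L w) h.fderiv

/-- Functions of `p` do not depend on `q`. -/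
theorem jb_mid0 (hO : IsOpen O) (hl : Lb O L₁ L₂ l) (hz : mid z ∈ O) :
    JB ep s0 (fun z => l (mid z)) L₁ L₂ z := by
  have h := jb_mid hO hl hz
  have ho : IsOpen {y : VV n | mid y ∈ O} := hO.preimage contDiff_mid.continuous
  have z1 : ∀ i, (fun y => fderiv ℝ (fun z : VV n => l (mid z)) y (ep (Sum.inr i))) =ᶠ[𝓝 z]
      fun _ => 0 := fun i => by
    filter_upwards [ho.mem_nhds hz] with y hy
    rw [fd_mid (df_of hO hl.sm hy), mid_inr, map_zero]
  refine ⟨h.sm, ?_, ?_⟩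
  · rintro (i | i)
    · exact h.d1 (Sum.inl i)
    · have h1 := (z1 i).self_of_nhds
      simp only at h1
      rw [h1]; simp [s0]
  · rintro (i | i) (j | j)
    · exact h.d2 (Sum.inl i) (Sum.inl j)
    · have h1 : (fun y => fderiv ℝ (fun z : VV n => l (mid z)) y (ep (Sum.inl i))) =ᶠ[𝓝 z]
          fun y => pd i l (mid y) := by
        filter_upwards [ho.mem_nhds hz] with y hy
        rw [fd_mid (df_of hO hl.sm hy), mid_inl]
        rfl
      rw [h1.fderiv_eq, fd_mid (df_of hO (sm_pd hO hl.sm i) hz), mid_inr, map_zero]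
      simp [s0]
    · rw [(z1 i).fderiv_eq]; simp [s0]
    · rw [(z1 i).fderiv_eq]; simp [s0]

theorem jb_mu0 (hO : IsOpen O) (hl : Lb O L₁ L₂ l) (hz : mid z ∈ O) {A B : ℝ}
    (hμ : J1 μ A B (l (mid z))) :
    JB ep s0 (fun z => μ (l (mid z))) (A * L₁) (B * L₁ ^ 2 + A * L₂) z :=
  jb_cmp (jb_mid0 hO hl hz) hμ

/-- The constant of `ur_of`. -/
def cU (n : ℕ) (M : ℝ) : ℝ := 900 * (1 + n) ^ 4 * (1 + M)

/-- **The bounds of `u` and `ρ`.** -/
theorem ur_of (hO : IsOpen O) (hc : Convex ℝ O) (hl : Lb O 2 (410 * δ) l) (hg : Nr O ε 1 1 g)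
    (hε : n * ε ≤ 1 / 2) (hε1 : ε ≤ 1) (hδ : 0 ≤ δ) (hx : z.1 ∈ O) (hy : z.2 ∈ O) (hm : mid z ∈ O)
    (hM : 0 ≤ M₁) (hμ : J1 μ M₁ μ₂ (l (mid z))) (h0 : 0 ≤ rq g z) :
    Ur (cU n M₁) δ μ₂ (√(rq g z)) (u1 μ l) (rq g) z := by
  set s := √(rq g z) with hs
  have s0' : 0 ≤ s := Real.sqrt_nonneg _
  have ss : s ^ 2 = rq g z := Real.sq_sqrt h0
  have hn : (0 : ℝ) ≤ n := Nat.cast_nonneg n
  have hμ2 : 0 ≤ μ₂ := (abs_nonneg _).trans hμ.e2
  have jf := (jb_fst hO hl hx).add (jb_snd hO hl hy)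
  have jm := (jb_mu0 hO hl hm hμ).cmul 2
  rw [abs_of_pos (by norm_num : (0 : ℝ) < 2)] at jm
  have ju : ∀ v, fderiv ℝ (u1 μ l) z v = fderiv ℝ (fun z : VV n => l z.1 + l z.2) z v +
      fderiv ℝ (fun z : VV n => 2 * μ (l (mid z))) z v := fun v => by
    have := fderiv_fun_add (ev_diff jf.sm).self_of_nhds (ev_diff jm.sm).self_of_nhds
    have e : fderiv ℝ (u1 μ l) z = _ := this
    rw [e]; rfl
  have ju2 : ∀ v w, fderiv ℝ (fun y => fderiv ℝ (u1 μ l) y v) z w =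
      fderiv ℝ (fun y => fderiv ℝ (fun z : VV n => l z.1 + l z.2) y v) z w +
      fderiv ℝ (fun y => fderiv ℝ (fun z : VV n => 2 * μ (l (mid z))) y v) z w :=
    fun v w => fd2_add jf.sm jm.sm v w
  have c0 : (1 : ℝ) ≤ (1 + n) ^ 4 := one_le_pow₀ (by linarith)
  have cn : ((1 : ℝ) + n) ^ 4 = 1 + 4 * n + 6 * n ^ 2 + 4 * n ^ 3 + n ^ 4 := by ring
  have pn2 : (0 : ℝ) ≤ n ^ 2 := by positivity
  have pn3 : (0 : ℝ) ≤ n ^ 3 := by positivity
  have pn4 : (0 : ℝ) ≤ n ^ 4 := by positivity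
  have cb : 900 * (1 + n) ^ 4 ≤ cU n M₁ := by
    unfold cU
    have : 0 ≤ 900 * ((1 : ℝ) + n) ^ 4 * M₁ := by positivity
    linarith
  have cm : 900 * (1 + M₁) ≤ cU n M₁ := by
    unfold cU
    have := mul_le_mul_of_nonneg_right c0 (by linarith : 0 ≤ 900 * (1 + M₁))
    linarith
  have a1 : 4 * (1 + M₁) ≤ cU n M₁ := by linarith
  have a2 : 820 ≤ cU n M₁ := by linarith
  have a3 : 615 * n ≤ cU n M₁ := by rw [cn] at cb; linarith
  have a4 : 5 * (n : ℝ) ^ 3 ≤ cU n M₁ := by rw [cn] at cb; linarith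
  have a5 : 6 * (n : ℝ) ^ 2 ≤ cU n M₁ := by rw [cn] at cb; linarith
  have a6 : 5 * (n : ℝ) ^ 4 ≤ cU n M₁ := by rw [cn] at cb; linarith
  have hq := nd_le hg hε hm
  rw [← hs] at hq
  have hq0 := norm_nonneg (dif z)
  have hqq : ‖dif z‖ * ‖dif z‖ ≤ 9 * s ^ 2 := by nlinarith
  have R1 := rq_1 hO hg hε1 zero_le_one hm
  have R2 := rq_2 hO hg hε1 zero_le_one zero_le_one hm
  refine
    { us := jf.sm.add jm.sm
      rs := rq_c2 hO hg hm
      up := fun i => ?_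
      uq := fun i => ?_
      upp := fun i j => ?_
      upq := fun i j => ?_
      uqp := fun i j => ?_
      uqq := fun i j => ?_
      rp := fun i => ?_
      rq := fun i => ?_
      rpp := fun i j => ?_
      rpq := fun i j => ?_
      rqp := fun i j => ?_
      rqq := fun i j => ?_ }
  · rw [ju]
    have h1 := jf.d1 (Sum.inl i)
    have h2 := jm.d1 (Sum.inl i)
    simp only [s0, mul_one] at h1 h2
    refine (abs_add_le _ _).trans ?_
    linarith
  · have h1 := u1_q hO hc hl (by positivity) hx hy hm ((ev_diff hμ.sm).self_of_nhds) i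
    refine h1.trans ?_
    have h2 := mul_le_mul_of_nonneg_left hq (by positivity : 0 ≤ (n : ℝ) / 2 * (410 * δ))
    have h3 := mul_le_mul_of_nonneg_right a3 (by positivity : 0 ≤ δ * s)
    linarith
  · rw [ju2]
    have h1 := jf.d2 (Sum.inl i) (Sum.inl j)
    have h2 := jm.d2 (Sum.inl i) (Sum.inl j)
    simp only [s0, mul_one] at h1 h2
    refine (abs_add_le _ _).trans ?_
    have h3 := mul_le_mul_of_nonneg_right cm hδ
    have h4 := mul_le_mul_of_nonneg_right a2 hμ2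
    have h5 : 0 ≤ M₁ * δ := by positivity
    nlinarith
  · rw [ju2]
    have h1 := jf.d2 (Sum.inl i) (Sum.inr j)
    have h2 := jm.d2 (Sum.inl i) (Sum.inr j)
    simp only [s0, mul_one, mul_zero] at h1 h2
    refine (abs_add_le _ _).trans ?_
    have h4 := mul_le_mul_of_nonneg_right a2 hδ
    linarith
  · rw [ju2]
    have h1 := jf.d2 (Sum.inr i) (Sum.inl j)
    have h2 := jm.d2 (Sum.inr i) (Sum.inl j)
    simp only [s0, mul_one, mul_zero] at h1 h2
    refine (abs_add_le _ _).trans ?_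
    have h4 := mul_le_mul_of_nonneg_right a2 hδ
    linarith
  · rw [ju2]
    have h1 := jf.d2 (Sum.inr i) (Sum.inr j)
    have h2 := jm.d2 (Sum.inr i) (Sum.inr j)
    simp only [s0, mul_one, mul_zero] at h1 h2
    refine (abs_add_le _ _).trans ?_
    have h4 := mul_le_mul_of_nonneg_right a2 hδ
    linarith
  · refine (R1 i).1.trans ?_
    have h1 := mul_le_mul_of_nonneg_left hqq pn3
    have h2 := mul_le_mul_of_nonneg_right a4 (sq_nonneg s)
    have h3 : 0 ≤ (n : ℝ) ^ 3 * s ^ 2 := by positivity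
    calc _ = 1 / 2 * ((n : ℝ) ^ 3 * (‖dif z‖ * ‖dif z‖)) := by ring
      _ ≤ _ := by linarith
  · refine (R1 i).2.trans ?_
    have h1 := mul_le_mul_of_nonneg_left hq pn2
    have h2 := mul_le_mul_of_nonneg_right a5 s0'
    linarith
  · refine (R2 i j).1.trans ?_
    have h1 := mul_le_mul_of_nonneg_left hqq pn4
    have h2 := mul_le_mul_of_nonneg_right a6 (sq_nonneg s)
    have h3 : 0 ≤ (n : ℝ) ^ 4 * s ^ 2 := by positivity
    calc _ = 1 / 2 * ((n : ℝ) ^ 4 * (‖dif z‖ * ‖dif z‖)) := by ring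
      _ ≤ _ := by linarith
  · refine (R2 i j).2.1.trans ?_
    have h1 := mul_le_mul_of_nonneg_left hq pn3
    have h2 := mul_le_mul_of_nonneg_right a4 s0'
    have h3 : 0 ≤ (n : ℝ) ^ 3 * s := by positivity
    calc _ = (n : ℝ) ^ 3 * ‖dif z‖ := by ring
      _ ≤ _ := by linarith
  · refine (R2 i j).2.2.1.trans ?_
    have h1 := mul_le_mul_of_nonneg_left hq pn3
    have h2 := mul_le_mul_of_nonneg_right a4 s0'
    have h3 : 0 ≤ (n : ℝ) ^ 3 * s := by positivity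
    calc _ = (n : ℝ) ^ 3 * ‖dif z‖ := by ring
      _ ≤ _ := by linarith
  · refine (R2 i j).2.2.2.trans ?_
    linarith

end Vale.Agent.P088.R2.H932.EP
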